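import Vale.Agent.P144D.I.Cg.CycD

/-!
Closed contours are sums of a bounded number of cycles in tubes, up to walls of spins.
-/

namespace Vale.Agent.P144Z

namespace ICyc

open Finset ICg GeoA B5a2

variable {M : ℕ} [NeZero M]

omit [NeZero M] in
theorem pw_one {I : Finset (Tor M)} {e : Tor M × Fin 2} :
    pwI I e = 1 ↔ e.1 ∈ I ∨ oth e ∈ I := by
  simp only [pwI, Reg.pw, Bool.false_eq_true, if_false]
  split_ifs with h <;> simp [h]

open Classical in
/-- The tube around one cycle, on the torus. -/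
theorem exists_tube {Λ : Finset (ℤ × ℤ)} {T q L N : ℕ} {E P : Finset Ed} {a : ℤ × ℤ}
    {S : Set (ℤ × ℤ)} (h : Cy E P a S) (hΛ : ∀ v ∈ Λ, zd v 0 ≤ T) (hq : 8 ≤ q) (hqT : 128 * q ≤ T)
    (hT : T ≤ L * q) (hM : 64 * T ≤ M) (hN : 16 * L + 53 + (8 * L + 8) ^ 2 ≤ N)
    (hE : ∀ e ∈ E, ∀ v, zd v (384 * q * e.1.1, 384 * q * e.1.2) ≤ 768 * q → v ∈ Λ) :
    ∃ W ⊆ Λ.image (prj M), Tube W T q N (prj M (cf q a)) ∧
      I1.IsEven (M := M) (fun e => lf (384 * q) P e.2 (lft e.1)) ∧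
      (∀ e : Tor M × Fin 2, lf (384 * q) P e.2 (lft e.1) = true → pwI W e = 1) ∧
      ∏ e ∈ cutE (prj M (cf q a)) (64 * q), sgn (lf (384 * q) P e.2 (lft e.1)) = -1 := by
  have q0 : 0 < q := by omega
  have hin : ∀ v ∈ tb q a S, v ∈ Λ := fun v hv => by
    obtain ⟨e, he, hd⟩ := tb_near q0 h hv
    exact hE e he v hd
  have hbox : ∀ v ∈ tb q a S, zd v 0 ≤ T := fun v hv => hΛ v (hin v hv)
  have hnear : ∀ v, zd v 0 ≤ 128 * q → zd (cf q a + v) 0 ≤ T := fun v hv => by
    refine hΛ _ (hE _ (h.sub h.mem) _ ?_)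
    simp only [zd, cf, Prod.fst_add, Prod.snd_add, Prod.fst_zero, Prod.snd_zero] at hv ⊢
    omega
  set W := Λ.filter (· ∈ tb q a S) with hW
  set U := Λ.filter (· ∈ tb q a S \ rz q a) with hU
  have mW : ∀ v, v ∈ W ↔ v ∈ tb q a S := fun v => by
    rw [hW, mem_filter]
    exact and_iff_right_of_imp (hin v)
  have mU : ∀ v, v ∈ U ↔ v ∈ tb q a S \ rz q a := fun v => by
    rw [hU, mem_filter]
    exact and_iff_right_of_imp fun c => hin v c.1
  have bW : ∀ v ∈ W, zd v 0 ≤ T := fun v hv => hbox v ((mW v).1 hv)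
  have bU : ∀ v ∈ U, zd v 0 ≤ T := fun v hv => hbox v ((mU v).1 hv).1
  have bi : ∀ i : ℕ, i ≤ 64 * q + 1 → zd (cf q a + ((i : ℤ), 0)) 0 ≤ T := fun i hi =>
    hnear _ (by simp only [zd, Prod.fst_zero, Prod.snd_zero]; omega)
  have mrow : ∀ v, zd v 0 ≤ T → (prj M v ∈ row (prj M (cf q a)) (64 * q) ↔ v ∈ rz q a) := by
    intro v hv
    simp only [row, mem_image, mem_Icc, ← G.prj_add]
    constructor
    · rintro ⟨i, ⟨i1, i2⟩, e⟩
      have b := bi i (by omega)
      rw [← prj_inj' e (by simp only [zd, Prod.fst_zero, Prod.snd_zero] at *; omega)]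
      exact ⟨add_zero _, by simp only [cf, Prod.fst_add]; omega,
        by simp only [cf, Prod.fst_add]; omega⟩
    · rintro ⟨a1, a2, a3⟩
      refine ⟨(v.1 - 384 * q * a.1 + 1).toNat, ⟨by omega, by omega⟩, congrArg _ (Prod.ext ?_ ?_)⟩
      · simp only [cf, Prod.fst_add]
        omega
      · simp only [cf, Prod.snd_add]
        omega
  have eU : W.image (prj M) \ row (prj M (cf q a)) (64 * q) = U.image (prj M) := by
    ext u
    simp only [mem_sdiff, mem_image]
    constructor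
    · rintro ⟨⟨v, hv, rfl⟩, hn⟩
      exact ⟨v, (mU v).2 ⟨(mW v).1 hv, mt (mrow v (bW v hv)).2 hn⟩, rfl⟩
    · rintro ⟨v, hv, rfl⟩
      exact ⟨⟨v, (mW v).2 ((mU v).1 hv).1, rfl⟩, mt (mrow v (bU v hv)).1 ((mU v).1 hv).2⟩
  have sU : (U : Set (ℤ × ℤ)) = tb q a S \ rz q a := Set.ext mU
  have dU : ∀ p, Dp q (tb q a S \ rz q a) p → Deep U (2 * q) p := fun p hp v hv =>
    (mU v).2 (hp v hv)
  have hsup : ∀ i v, lf (384 * q) P i v = true → zd v 0 ≤ T := fun i v hv =>
    hbox v (tb_lf h q0 hv)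
  refine ⟨W.image (prj M), image_subset_image (filter_subset _ _), ⟨fun v hv => ?_, ?_, hqT, ?_⟩,
    fun x => ?_, fun e he => pw_one.2 (Or.inl ?_), ?_⟩
  · rw [← G.prj_add, mem_img bW (by have := hnear v hv; omega), mW, tb_loc h q0 hv]
  · exact (tdist_prj_zero _).trans (by simpa using hnear 0 (by simp [zd]))
  · rw [eU, ← G.prj_add, ← G.prj_add]
    refine corr_of bU (fun u v hu hv => ?_) (sU ▸ tb_cov (by omega) hT hbox)
      (rch_mono dU (tb_path h q0)) (dU _ ?_) hq hT hM hN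
    · exact rch_mono (fun w c => mt (mU w).1 c) (tb_allC h q0 u v (mt (mU u).2 hu) (mt (mU v).2 hv))
    · have := tb_dp h q0 (y := 384 * q * a.2 + 200 * q + 1) (by omega) (by omega) (by omega)
      intro v hv
      refine this v ?_
      simp only [zd, cf, Prod.fst_add, Prod.snd_add] at hv ⊢
      omega
  · simp only
    rw [lft_sub (hsup 0) (by omega), lft_sub (hsup 1) (by omega)]
    exact lf_even (by omega) h.even _
  · rw [← prj_lft e.1]
    exact mem_image_of_mem _ ((mW _).2 (tb_lf h q0 he))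
  · have key : ∀ i : ℕ, 1 ≤ i → i ≤ 64 * q + 1 →
        lf (384 * q) P 1 (lft (prj M (cf q a) + prj M ((i : ℤ), 0))) = decide (i = 1) := by
      intro i h1 h2
      rw [← G.prj_add, lft_box (bi i h2) (by omega), lf_cut h q0 h1 h2]
    rw [prod_eq_single (prj M (cf q a) + prj M (((1 : ℕ) : ℤ), 0), (1 : Fin 2))]
    · rw [key 1 le_rfl (by omega)]
      simp [sgn]
    · intro e he hne
      obtain ⟨i, hi, rfl⟩ := mem_image.1 he
      rw [mem_Icc] at hi
      rw [key i hi.1 hi.2, decide_eq_false (fun c => hne (by rw [c]))]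
      simp [sgn]
    · intro c
      exact absurd (mem_image_of_mem _ (mem_Icc.2 ⟨le_rfl, by omega⟩)) c

/-- The planar version of a spin configuration that is locally constant outside `Λ`. -/
theorem exists_planar {Λ : Finset (ℤ × ℤ)} {T : ℕ} (hΛ : ∀ v ∈ Λ, zd v 0 ≤ T) (h1 : 1 ≤ T)
    (hM : 64 * T ≤ M) (τ : Tor M → Bool)
    (hτ : ∀ e, dom τ e = true → pwI (Λ.image (prj M)) e = 1) :
    ∃ (t : ℤ × ℤ → Bool) (c : Bool), (∀ v, t v = true → zd v 0 ≤ T) ∧
      (∀ u, u ∉ Λ.image (prj M) → t (lft u) = xor (τ u) c) ∧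
      ∀ f f', Rch (· ∉ Λ) f f' → t f = t f' := by
  have one : ∀ v i, v ∉ Λ → v - uz i ∉ Λ → zd v 0 ≤ M / 2 → zd (v - uz i) 0 ≤ M / 2 →
      τ (prj M v) = τ (prj M (v - uz i)) := by
    intro v i a1 a2 a3 a4
    obtain ⟨j, hj⟩ : ∃ j : Fin 2, (if j = 0 then 1 else 0 : Fin 2) = i := by
      fin_cases i
      exacts [⟨1, rfl⟩, ⟨0, rfl⟩]
    by_contra hne
    have := pw_one.1 (hτ (prj M v, j) (by
      simp only [dom, hj]
      rw [← prj_uz, ← G.prj_sub]
      simpa using hne))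
    simp only [oth, hj] at this
    rw [← prj_uz, ← G.prj_sub, mem_img hΛ (by omega), mem_img hΛ (by omega)] at this
    exact this.elim a1 a2
  have step : ∀ v d, v ∉ Λ → v + st4 d ∉ Λ → zd v 0 ≤ M / 2 → zd (v + st4 d) 0 ≤ M / 2 →
      τ (prj M v) = τ (prj M (v + st4 d)) := by
    intro v d a1 a2 a3 a4
    rcases edg_ends v d with ⟨-, b⟩ | ⟨-, b⟩
    · have := one (v + st4 d) (edg v d).2
      rw [b, add_sub_cancel_right] at this
      exact (this a2 a1 a4 a3).symm
    · have := one v (edg v d).2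
      rw [b, sub_neg_eq_add] at this
      exact this a1 a2 a3 a4
  have path : ∀ u v, Rch (fun w => T < zd w 0 ∧ zd w 0 ≤ M / 2) u v →
      τ (prj M u) = τ (prj M v) := fun u v h =>
    rch_ind (P := fun w => τ (prj M u) = τ (prj M w)) h rfl fun x d _ a1 a2 a3 =>
      a3.trans (step x d (fun c => by have := hΛ _ c; omega) (fun c => by have := hΛ _ c; omega)
        a1.2 a2.2)
  have far : ∀ v, T < zd v 0 → zd v 0 ≤ M / 2 →
      τ (prj M v) = τ (prj M ((T + 1 : ℤ), (T + 1 : ℤ))) := by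
    rintro ⟨x, y⟩ a1 a2
    simp only [zd, Prod.fst_zero, Prod.snd_zero] at a1 a2
    by_cases c : T < x.natAbs
    · refine path _ _ ((rch_col x y (T + 1) fun j _ _ => ?_).trans
        (rch_row (T + 1) x (T + 1) fun j _ _ => ?_)) <;>
      simp only [zd, Prod.fst_zero, Prod.snd_zero] <;> omega
    · refine path _ _ ((rch_row y x (T + 1) fun j _ _ => ?_).trans
        (rch_col (T + 1) y (T + 1) fun j _ _ => ?_)) <;>
      simp only [zd, Prod.fst_zero, Prod.snd_zero] <;> omega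
  set c := τ (prj M ((T + 1 : ℤ), (T + 1 : ℤ))) with hc
  have val : ∀ v, zd v 0 ≤ M / 2 →
      (decide (zd v 0 ≤ T) && xor (τ (prj M v)) c) = xor (τ (prj M v)) c := by
    intro v hv
    by_cases k : zd v 0 ≤ T
    · simp [k]
    · simp [k, far v (by omega) hv]
  refine ⟨fun v => decide (zd v 0 ≤ T) && xor (τ (prj M v)) c, c, fun v hv => ?_,
    fun u _ => ?_, fun f f' h => ?_⟩
  · exact of_decide_eq_true (Bool.and_eq_true_iff.1 hv).1
  · have := zd_lft_le u
    simp only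
    rw [val _ (by omega), prj_lft]
  · refine rch_ind (P := fun w => (decide (zd f 0 ≤ T) && xor (τ (prj M f)) c) =
      (decide (zd w 0 ≤ T) && xor (τ (prj M w)) c)) h rfl fun x d _ a1 a2 a3 => a3.trans ?_
    have hd := st4_cases d
    have b : zd (x + st4 d) 0 ≤ zd x 0 + 1 ∧ zd x 0 ≤ zd (x + st4 d) 0 + 1 := by
      simp only [zd, Prod.fst_add, Prod.snd_add, Prod.fst_zero, Prod.snd_zero]
      omega
    by_cases k : zd x 0 ≤ T + 1
    · rw [val _ (by omega), val _ (by omega), step x d a1 a2 (by omega) (by omega)]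
    · rw [decide_eq_false (by omega), decide_eq_false (by omega), Bool.false_and, Bool.false_and]

end ICyc

open Finset ICyc in
theorem cycStmt : CycStmt := by
  classical
  intro C
  refine ⟨2304 * C + 128, fun L => ⟨2 * (2 * L + 1) ^ 2 + (16 * L + 53 + (8 * L + 8) ^ 2), ?_⟩⟩
  intro Λ T r q hD hΛ hT hq hr hrT M _ hM τ hτ
  rw [add_mul] at hr
  have q0 : 0 < q := by omega
  obtain ⟨t, c, t1, t2, t3⟩ := exists_planar hΛ (by omega) hM τ hτ
  obtain ⟨u, u1, u2⟩ := exists_coarse Λ (m := 384 * q) (by omega) t fun f f' a1 a2 a3 =>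
    t3 f f' (hD.out (6 * (384 * q)) (by omega) (by nlinarith) f f' a1 a2 a3)
  push_cast at u1 u2
  set E : Finset Ed := ((Icc (-(L : ℤ)) L ×ˢ Icc (-(L : ℤ)) L) ×ˢ univ).filter
    fun e => u e.1 ≠ u (e.1 - uz (if e.2 = 0 then 1 else 0)) with hE
  have mE : ∀ a i, (a, i) ∈ E ↔ u a ≠ u (a - uz (if i = 0 then 1 else 0)) := by
    intro a i
    rw [hE, mem_filter]
    refine and_iff_right_of_imp fun h => ?_
    have h1 := hΛ _ (u2 a _ h (384 * q * a.1, 384 * q * a.2) (by simp [zd]))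
    have h2 : (T : ℤ) ≤ L * q := by exact_mod_cast hT
    have h3 : (0 : ℤ) < q := by omega
    simp only [zd, Prod.fst_zero, Prod.snd_zero, sub_zero] at h1
    have key : ∀ x : ℤ, (384 * q * x).natAbs ≤ T → -(L : ℤ) ≤ x ∧ x ≤ L := fun x hx => by
      have b1 : 384 * q * x ≤ T := by omega
      have b2 : -(T : ℤ) ≤ 384 * q * x := by omega
      have b3 : (0 : ℤ) ≤ L := by omega
      constructor <;> nlinarith
    simp only [mem_product, mem_Icc, mem_univ, and_true]
    exact ⟨key _ (by omega), key _ (by omega)⟩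
  obtain ⟨n, hn, P, a, S, c1, c2⟩ := decomp E (dom_even mE)
  have hcard : E.card ≤ 2 * (2 * L + 1) ^ 2 := by
    refine (card_filter_le _ _).trans ?_
    rw [card_product, card_product, Int.card_Icc, card_univ, Fintype.card_fin,
      show ((L : ℤ) + 1 - -(L : ℤ)).toNat = 2 * L + 1 by omega]
    exact le_of_eq (by ring)
  choose W w1 w2 w3 w4 w5 using fun j => exists_tube (M := M) (L := L)
    (N := 2 * (2 * L + 1) ^ 2 + (16 * L + 53 + (8 * L + 8) ^ 2)) (c1 j) hΛ (by omega) (by omega) hT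
    hM (Nat.le_add_left _ _) fun e he v hv => u2 e.1 _ ((mE e.1 e.2).1 he) v (by omega)
  have hsup : ∀ v, u (cel (384 * q) v) = true → zd v 0 ≤ T := fun v hv => by
    by_cases k : v ∈ Λ
    · exact hΛ v k
    · exact t1 v (u1 v k ▸ hv)
  refine ⟨n, by omega, W, fun j => prj M (cf q (a j)),
    fun j e => lf (384 * q) (P j) e.2 (lft e.1),
    fun x => xor (xor (τ x) c) (u (cel (384 * q) (lft x))),
    fun j => ⟨w1 j, w2 j, w3 j, w4 j, w5 j⟩, fun x hx => ?_, fun e => ?_⟩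
  · simp only
    rw [u1 _ fun k => hx (prj_lft x ▸ mem_image_of_mem _ k), t2 x hx, Bool.xor_self]
  · rw [← lf_prod c2, ← lf_dom (by omega) mE, ← lft_sub hsup (M := M) (by omega)]
    simp only [dom]
    generalize τ e.1 = b1
    generalize τ (e.1 - _) = b2
    generalize u (cel _ (lft e.1)) = b3
    generalize u (cel _ (lft (e.1 - _))) = b4
    cases b1 <;> cases b2 <;> cases b3 <;> cases b4 <;> cases c <;> simp [sgn]

end Vale.Agent.P144Z
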