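import Vale.Agent.P144D.I.Cg.Corr

/-!
Two connected marked vertices are joined by a corridor.
-/

namespace Vale.Agent.P144Z

open Finset GeoA B5a2

namespace ICg

/-! ### The cone at a marked vertex -/

theorem cone_step {ν : ℂ} {κ : ℝ} {e : Fin 4} (hν : ‖ν‖ = 1) (he : 1 / 2 ≤ ht ν (st4 e))
    (hκ : 100 * κ ≤ 1) {d : ℤ × ℤ} {s t : ℕ} (hd : zd d (t • st4 e) ≤ s) (hs : 3 * s ≤ t) :
    κ * len d ≤ ht ν d := by
  have key : ∀ (x y : ℤ) (c c' : ℝ), c ^ 2 + c' ^ 2 = 1 → 1 / 2 ≤ c → (x - t).natAbs ≤ s →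
      y.natAbs ≤ s → (|(x : ℝ)| + |(y : ℝ)|) / 100 ≤ x * c + y * c' := by
    intro x y c c' h1 h2 h3 h4
    have a1 : (t : ℝ) - s ≤ x := by exact_mod_cast (show (t : ℤ) - s ≤ x by omega)
    have a2 : |(y : ℝ)| ≤ s := by exact_mod_cast (show |y| ≤ (s : ℤ) by
      rw [Int.abs_eq_natAbs]; omega)
    have a3 : 3 * (s : ℝ) ≤ t := by exact_mod_cast hs
    have a4 : |c'| ≤ 7 / 8 := abs_le_of_sq_le_sq' (by nlinarith) (by norm_num) |> abs_le.2
    have a5 : (0 : ℝ) ≤ s := Nat.cast_nonneg s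
    have a6 : |(y : ℝ) * c'| ≤ s * (7 / 8) := by
      rw [abs_mul]
      exact mul_le_mul a2 a4 (abs_nonneg _) a5
    have a7 := (abs_le.1 a6).1
    rw [abs_of_nonneg (show (0 : ℝ) ≤ x by linarith)]
    nlinarith
  have h1 := sq_add hν
  have h2 := len_le d
  have h3 := len_nonneg d
  refine le_trans (show κ * len d ≤ (|(d.1 : ℝ)| + |(d.2 : ℝ)|) / 100 by nlinarith) ?_
  simp only [zd] at hd
  fin_cases e <;> simp [st4, ht] at he hd ⊢
  · exact key d.1 d.2 _ _ h1 (by linarith) (by omega) (by omega)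
  · have := key d.2 d.1 ν.im ν.re (by linarith) (by linarith) (by omega) (by omega)
    linarith
  · have := key (-d.1) d.2 (-ν.re) ν.im (by linarith) (by linarith) (by omega) (by omega)
    simpa using this
  · have := key (-d.2) d.1 (-ν.im) ν.re (by linarith) (by linarith) (by omega) (by omega)
    simp only [Int.cast_neg, abs_neg, mul_neg, neg_mul, neg_neg] at this
    linarith

theorem zd_sub (u v a : ℤ × ℤ) : zd (u - a) (v - a) = zd u v := by
  simp [zd]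

theorem zd_line (u : ℤ × ℤ) (e : Fin 4) (t : ℕ) : zd (u + t • st4 e) u ≤ t := by
  fin_cases e <;> simp [zd, st4]

variable {Λ : Finset (ℤ × ℤ)} {κ : ℝ} {r : ℕ} {x : ℤ × ℤ} {e : Fin 4}

theorem mk_in (h : MkZ Λ κ r x e) (hκ : 100 * κ ≤ 1) {u v : ℤ × ℤ} {s t : ℕ} (hu : u ∈ Λ)
    (h1 : zd u x ≤ r) (h2 : zd v x ≤ r) (hd : zd v (u + t • st4 e) ≤ s) (hs : 3 * s ≤ t) :
    v ∈ Λ := by
  obtain ⟨S, ν, a1, a2, a3, a4⟩ := h.cone
  have k : ∀ y, zd y x ≤ r → (y ∈ Λ ↔ y - x ∈ S) := fun y hy => by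
    simpa using a4 (y - x) (by rwa [← zd_sub y x x, sub_self] at hy)
  have := a2 _ ((k u h1).1 hu) (v - u) (cone_step a1 a3 hκ (s := s) (t := t)
    (by rwa [← zd_sub _ _ u, add_sub_cancel_left] at hd) hs)
  exact (k v h2).2 (by simpa using this)

theorem touch_near (h : Touch Λ x) : ∃ u ∈ Λ, zd u x ≤ 1 := by
  obtain ⟨k, hk⟩ := h
  exact ⟨_, hk, by fin_cases k <;> simp [zd, cn]⟩

/-- The points on the line through a marked vertex are deep. -/
theorem mk_deep (h : MkZ Λ κ r x e) (hκ : 100 * κ ≤ 1) {s t : ℕ} (hs : 3 * (s + 1) ≤ t)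
    (hr : t + s ≤ r) : Deep Λ s (x + t • st4 e) := by
  intro v hv
  obtain ⟨u, h1, h2⟩ := touch_near h.touch
  have := zd_line x e t
  have := zd_tri v (x + t • st4 e) x
  refine mk_in h hκ h1 (by omega) (by omega) ?_ hs
  simp only [zd, Prod.fst_add, Prod.snd_add] at hv h2 ⊢
  omega

/-- Outer faces near a marked vertex escape. -/
theorem mk_out (h : MkZ Λ κ r x e) (hκ : 100 * κ ≤ 1) {v : ℤ × ℤ} (hv : v ∉ Λ) {R d : ℕ}
    (h1 : zd v x ≤ R) (hr : R + 4 * d ≤ r) :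
    ∃ y, (∀ u ∈ Λ, d < zd y u) ∧ Rch (· ∉ Λ) v y := by
  have key : ∀ (s t : ℕ) u, zd u (v + t • st4 (e + 2)) ≤ s → 3 * s ≤ t → R + t + s ≤ r → u ∉ Λ := by
    intro s t u k1 k2 k3 hu
    have := zd_line v (e + 2) t
    have := zd_tri u (v + t • st4 (e + 2)) v
    have := zd_tri u v x
    refine hv (mk_in h hκ hu (by omega) (by omega) ?_ k2)
    simp only [st4_add_two, zd, smul_neg, Prod.fst_add, Prod.snd_add, Prod.fst_neg,
      Prod.snd_neg] at k1 ⊢
    omega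
  refine ⟨v + (3 * d) • st4 (e + 2), fun u hu => ?_,
    rch_ray v _ _ fun t ht => key 0 t _ (by simp [zd]) (by omega) (by omega)⟩
  by_contra k
  exact key d (3 * d) u (by rw [zd_comm]; omega) le_rfl (by omega) hu

/-- Deep points near two connected vertices are connected through deep points. -/
theorem deep_conn {C d s : ℕ} (h : DeepOK Λ C r) (hd : C ≤ d) (h1 : 1 ≤ d) (h2 : d ≤ s)
    (hs : C * (2 * d) + 1 ≤ s) (hr : C * (2 * s + 1) ≤ r) {a b : ℤ × ℤ} (hab : PrConn Λ a b)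
    {p : ℤ × ℤ} (hp : Deep Λ (2 * d) p) (hpa : zd p a ≤ s) :
    ∀ p', Deep Λ (2 * d) p' → zd p' b ≤ s → Rch (Deep Λ d) p p' := by
  have conn := h.conn d (2 * s + 1) hd (by omega) hr
  induction hab with
  | refl =>
    intro p' k1 k2
    have := zd_tri p a p'
    have := zd_comm a p'
    exact conn p p' hp k1 (by omega)
  | @tail v w _ k ih =>
    intro p' k1 k2
    obtain ⟨c, rfl, k⟩ := k
    obtain ⟨u, u1, u2⟩ := touch_near (show Touch Λ v by
      by_contra k'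
      exact k ⟨fun m => k' ⟨_, m⟩, fun m => k' ⟨_, m⟩⟩)
    obtain ⟨y, y1, y2⟩ := h.cork (2 * d) (by omega)
      ((Nat.mul_le_mul_left _ (by omega)).trans hr) u u1
    have := zd_tri y u v
    have := zd_tri y v p'
    have := zd_tri v (v + st4 c) p'
    have := zd_comm p' (v + st4 c)
    have := zd_comm v (v + st4 c)
    have : zd (v + st4 c) v ≤ 1 := by simpa using zd_line v c 1
    exact (ih y y2 (by omega)).trans (conn y p' y2 k1 (by omega))

/-! ### Cells -/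

/-- The corner of a node. -/
def Bs (m : ℕ) (o k : ℤ × ℤ) : ℤ × ℤ := (o.1 + m * k.1, o.2 + m * k.2)

/-- The cell of a point. -/
def cel (m w : ℕ) (o v : ℤ × ℤ) : ℤ × ℤ := (gr m w o.1 v.1, gr m w o.2 v.2)

/-- The three cells of a step. -/
def Tri (k : ℤ × ℤ) (a : Fin 4) : Set (ℤ × ℤ) := {2 • k, 2 • k + st4 a, 2 • (k + st4 a)}

variable {m w : ℕ} {o k v : ℤ × ℤ}

theorem Bs_add (m : ℕ) (o k : ℤ × ℤ) (a : Fin 4) (i : ℕ) :
    Bs m o (k + i • st4 a) = Bs m o k + (i * m) • st4 a := by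
  fin_cases a <;> simp [Bs, st4] <;> ring

theorem Bs_step (m : ℕ) (o k : ℤ × ℤ) (a : Fin 4) :
    Bs m o (k + st4 a) = Bs m o k + m • st4 a := by simpa using Bs_add m o k a 1

theorem tri_symm (k : ℤ × ℤ) (a : Fin 4) : Tri (k + st4 a) (a + 2) = Tri k a := by
  have e1 : k + st4 a + st4 (a + 2) = k := by rw [st4_add_two, add_neg_cancel_right]
  have e2 : 2 • (k + st4 a) + st4 (a + 2) = 2 • k + st4 a := by
    rw [st4_add_two, smul_add, two_smul ℕ (st4 a)]
    abel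
  ext v
  simp only [Tri, e1, e2, Set.mem_insert_iff, Set.mem_singleton_iff]
  tauto

theorem cel_node (hw : w < m) (h : (Bs m o k).1 ≤ v.1 ∧ v.1 < (Bs m o k).1 + w ∧
    (Bs m o k).2 ≤ v.2 ∧ v.2 < (Bs m o k).2 + w) : cel m w o v = 2 • k := by
  simp only [Bs] at h
  rw [cel, Prod.ext_iff, two_fst, two_snd]
  exact ⟨(gr_eq_even (by omega) (by omega)).2 ⟨h.1, h.2.1⟩,
    (gr_eq_even (by omega) (by omega)).2 h.2.2⟩

theorem gr_near (h0 : 0 < w) (hw : w < m) {o x k : ℤ} (h : (gr m w o x - 2 * k).natAbs ≤ 2) :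
    (x - (o + m * k)).natAbs ≤ 2 * m := by
  have mono := (stp_gr (m := m) (w := w) (by omega) (by omega) o).mono
  have e1 : gr m w o (o + m * k + 2 * m) = 2 * (k + 2) :=
    (gr_eq_even (by omega) (by omega)).2 (by rw [mul_add]; omega)
  have e2 : gr m w o (o + m * k - 2 * m) = 2 * (k + -2) :=
    (gr_eq_even (by omega) (by omega)).2 (by rw [mul_add]; omega)
  by_contra k'
  rcases (show o + m * k + 2 * m ≤ x ∨ x ≤ o + m * k - 2 * m by omega) with c | c <;>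
    have := mono c <;> omega

theorem tri_near (h0 : 0 < w) (hw : w < m) {a : Fin 4} (h : cel m w o v ∈ Tri k a) :
    zd v (Bs m o k) ≤ 2 * m := by
  have := st4_cases a
  simp only [Tri, cel, Set.mem_insert_iff, Set.mem_singleton_iff, Prod.ext_iff, two_fst, two_snd,
    Prod.fst_add, Prod.snd_add] at h
  have := gr_near (o := o.1) (x := v.1) (k := k.1) h0 hw (by omega)
  have := gr_near (o := o.2) (x := v.2) (k := k.2) h0 hw (by omega)
  simp only [zd, Bs]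
  omega

theorem gr_three (h0 : 0 < w) (hw : w < m) {o x k : ℤ} (h1 : o + m * k ≤ x)
    (h2 : x < o + m * k + m + w) : 2 * k ≤ gr m w o x ∧ gr m w o x ≤ 2 * k + 2 := by
  have mono := (stp_gr (m := m) (w := w) (by omega) (by omega) o).mono
  have e1 : gr m w o (o + m * k) = 2 * k := (gr_eq_even (by omega) (by omega)).2 (by omega)
  have e2 : gr m w o (o + m * k + m + w - 1) = 2 * (k + 1) :=
    (gr_eq_even (by omega) (by omega)).2 (by rw [mul_add]; omega)
  have := mono h1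
  have := mono (show x ≤ o + m * k + m + w - 1 by omega)
  omega

theorem tri_of (h0 : 0 < w) (hw : w < m) {a : Fin 4}
    (h1 : min (Bs m o k).1 (Bs m o k + m • st4 a).1 ≤ v.1)
    (h2 : v.1 < max (Bs m o k).1 (Bs m o k + m • st4 a).1 + w)
    (h3 : min (Bs m o k).2 (Bs m o k + m • st4 a).2 ≤ v.2)
    (h4 : v.2 < max (Bs m o k).2 (Bs m o k + m • st4 a).2 + w) : cel m w o v ∈ Tri k a := by
  have ev : ∀ o x k : ℤ, o + m * k ≤ x → x < o + m * k + w → gr m w o x = 2 * k :=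
    fun o x k a b => (gr_eq_even (by omega) (by omega)).2 ⟨a, b⟩
  simp only [Tri, cel, Set.mem_insert_iff, Set.mem_singleton_iff, Prod.ext_iff, two_fst, two_snd,
    Prod.fst_add, Prod.snd_add]
  fin_cases a <;> simp [Bs, st4] at h1 h2 h3 h4 ⊢
  · have := gr_three (o := o.1) (x := v.1) (k := k.1) h0 hw (by omega) (by omega)
    have := ev o.2 v.2 k.2 (by omega) (by omega)
    omega
  · have := gr_three (o := o.2) (x := v.2) (k := k.2) h0 hw (by omega) (by omega)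
    have := ev o.1 v.1 k.1 (by omega) (by omega)
    omega
  · have := gr_three (o := o.1) (x := v.1) (k := k.1 + -1) h0 hw (by rw [mul_add]; omega)
      (by rw [mul_add]; omega)
    have := ev o.2 v.2 k.2 (by omega) (by omega)
    omega
  · have := gr_three (o := o.2) (x := v.2) (k := k.2 + -1) h0 hw (by rw [mul_add]; omega)
      (by rw [mul_add]; omega)
    have := ev o.1 v.1 k.1 (by omega) (by omega)
    omega

/-- An offset that is good for two points. -/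
theorem exists_off {q : ℕ} (hq : 0 < q) (hm : m = 108 * q) (x y : ℤ) : ∃ o i j : ℤ,
    (o + m * i + 17 * q ≤ x ∧ x < o + m * i + 89 * q) ∧
      o + m * j + 17 * q ≤ y ∧ y < o + m * j + 89 * q := by
  obtain ⟨j, h1, h2⟩ := exists_cell (m := m) (by omega) (x - 17 * q) y
  by_cases c : x - 17 * q + m * j + 17 * q ≤ y ∧ y < x - 17 * q + m * j + 89 * q
  · exact ⟨x - 17 * q, 0, j, by omega, c⟩
  · by_cases c' : y < x - 17 * q + m * j + 17 * q
    · exact ⟨x - 53 * q, 0, j, by omega, by omega⟩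
    · exact ⟨x - 53 * q, 0, j + 1, by omega, by rw [mul_add]; omega⟩

/-! ### Good steps -/

/-- A good step of the coarse path, with reference points `ref`. -/
def Ed (Λ : Finset (ℤ × ℤ)) (q m w : ℕ) (o : ℤ × ℤ) (Nr : ℤ × ℤ → Prop) (ref : ℤ × ℤ → ℤ × ℤ)
    (k : ℤ × ℤ) (a : Fin 4) : Prop :=
  (∀ v, cel m w o v ∈ Tri k a → Nr v) ∧
    Rch (fun x => ∀ y, zd y x ≤ 2 * q → y ∈ Λ ∧ cel m w o y ∈ Tri k a) (ref k) (ref (k + st4 a))

/-- The reference points lie well inside the nodes. -/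
def RefOK (q m w : ℕ) (o : ℤ × ℤ) (ref : ℤ × ℤ → ℤ × ℤ) : Prop :=
  ∀ k, (Bs m o k).1 + 2 * q ≤ (ref k).1 ∧ (ref k).1 + 2 * q < (Bs m o k).1 + w ∧
    (Bs m o k).2 + 2 * q ≤ (ref k).2 ∧ (ref k).2 + 2 * q < (Bs m o k).2 + w

variable {q : ℕ} {Nr : ℤ × ℤ → Prop} {ref : ℤ × ℤ → ℤ × ℤ}

theorem Ed.symm {a : Fin 4} (h : Ed Λ q m w o Nr ref k a) :
    Ed Λ q m w o Nr ref (k + st4 a) (a + 2) := by
  rw [Ed, tri_symm, st4_add_two, add_neg_cancel_right]
  exact ⟨h.1, h.2.symm⟩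

theorem walk_symm {k k' : ℤ × ℤ}
    (h : Relation.ReflTransGen (fun u v => ∃ a, v = u + st4 a ∧ Ed Λ q m w o Nr ref u a) k k') :
    Relation.ReflTransGen (fun u v => ∃ a, v = u + st4 a ∧ Ed Λ q m w o Nr ref u a) k' k := by
  induction h with
  | refl => exact Relation.ReflTransGen.refl
  | tail _ h ih =>
    obtain ⟨a, rfl, h⟩ := h
    exact Relation.ReflTransGen.head
      ⟨a + 2, by rw [st4_add_two, add_neg_cancel_right], h.symm⟩ ih

theorem ed_of (h0 : 0 < w) (hw : w < m) (hr : RefOK q m w o ref) {a : Fin 4}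
    (h1 : ∀ v, zd v (Bs m o k) ≤ 2 * m → Nr v)
    (h2 : ∀ x : ℤ × ℤ, min (ref k).1 (ref (k + st4 a)).1 ≤ x.1 →
      x.1 ≤ max (ref k).1 (ref (k + st4 a)).1 → min (ref k).2 (ref (k + st4 a)).2 ≤ x.2 →
      x.2 ≤ max (ref k).2 (ref (k + st4 a)).2 → ∀ y, zd y x ≤ 2 * q → zd y (Bs m o k) ≤ 2 * m →
      y ∈ Λ) : Ed Λ q m w o Nr ref k a := by
  refine ⟨fun v hv => h1 v (tri_near h0 hw hv), rch_rect _ _ fun x a1 a2 a3 a4 y hy => ?_⟩
  have k1 : cel m w o y ∈ Tri k a := by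
    have b1 := hr k
    have b2 := hr (k + st4 a)
    rw [Bs_step] at b2
    simp only [zd] at hy
    exact tri_of h0 hw (by omega) (by omega) (by omega) (by omega)
  exact ⟨h2 x a1 a2 a3 a4 y hy (tri_near h0 hw k1), k1⟩

/-- The coarse walk along a path of deep points. -/
theorem walk_deep (h0 : 0 < w) (hw : w < m) (hr : RefOK q m w o ref) (hN : ∀ v ∈ Λ, Nr v)
    {k k' : ℤ × ℤ} (h : Rch (Deep Λ (3 * m)) (ref k) (ref k')) :
    Relation.ReflTransGen (fun u v => ∃ a, v = u + st4 a ∧ Ed Λ q m w o Nr ref u a) k k' := by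
  have hm : (0 : ℤ) < m := by omega
  have cancel : ∀ a b : ℤ, (m : ℤ) * a < m * b + m → a ≤ b := fun a b k =>
    Int.lt_add_one_iff.1 (lt_of_mul_lt_mul_left (by rwa [mul_add, mul_one]) hm.le)
  have key : ∃ j : ℤ × ℤ, Relation.ReflTransGen
      (fun u v => ∃ a, v = u + st4 a ∧ Ed Λ q m w o Nr ref u a) k j ∧
      (Bs m o j).1 ≤ (ref k').1 ∧ (ref k').1 < (Bs m o j).1 + m ∧
      (Bs m o j).2 ≤ (ref k').2 ∧ (ref k').2 < (Bs m o j).2 + m := by
    refine rch_ind (P := fun x => ∃ j : ℤ × ℤ, Relation.ReflTransGen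
      (fun u v => ∃ a, v = u + st4 a ∧ Ed Λ q m w o Nr ref u a) k j ∧
      (Bs m o j).1 ≤ x.1 ∧ x.1 < (Bs m o j).1 + m ∧ (Bs m o j).2 ≤ x.2 ∧ x.2 < (Bs m o j).2 + m) h
      ⟨k, Relation.ReflTransGen.refl, by have := hr k; omega⟩ ?_
    rintro x a - hx - ⟨j, j1, j2⟩
    have ins : ∀ y, zd y (Bs m o j) ≤ 2 * m → y ∈ Λ := fun y hy => hx y (by
      simp only [zd] at hy ⊢
      omega)
    by_cases c : (Bs m o j).1 ≤ (x + st4 a).1 ∧ (x + st4 a).1 < (Bs m o j).1 + m ∧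
      (Bs m o j).2 ≤ (x + st4 a).2 ∧ (x + st4 a).2 < (Bs m o j).2 + m
    · exact ⟨j, j1, c⟩
    · refine ⟨j + st4 a, j1.tail ⟨a, rfl, ed_of h0 hw hr (fun v hv => hN v (ins v hv))
        fun _ _ _ _ _ y _ hy => ins y hy⟩, ?_⟩
      rw [Bs_step]
      fin_cases a <;> simp [st4] at c ⊢ <;> omega
  obtain ⟨j, j1, j2⟩ := key
  have := hr k'
  simp only [Bs] at j2 this
  have e : j = k' := Prod.ext
    (le_antisymm (cancel _ _ (by omega)) (cancel _ _ (by omega)))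
    (le_antisymm (cancel _ _ (by omega)) (cancel _ _ (by omega)))
  exact e ▸ j1

/-- The coarse walk along the line through a marked vertex. -/
theorem walk_stem (h0 : 0 < w) (hw : w < m) (hr : RefOK q m w o ref) (h : MkZ Λ κ r x e)
    (hκ : 100 * κ ≤ 1) (hq : 2 ≤ q) (hm : 10 * q ≤ m) (hr' : 22 * m ≤ r) (hx : zd (Bs m o k) x ≤ m)
    (hN : ∀ v, zd v x ≤ 21 * m → (∃ u ∈ Λ, zd v u ≤ 3 * m) → Nr v)
    (href : ∀ i ≤ 18, ref (k + i • st4 e) = x + (8 * q + i * m) • st4 e) (n : ℕ) (hn : n ≤ 18) :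
    Relation.ReflTransGen (fun u v => ∃ a, v = u + st4 a ∧ Ed Λ q m w o Nr ref u a) k
      (k + n • st4 e) := by
  induction n with
  | zero => simpa using Relation.ReflTransGen.refl
  | succ n ih =>
    have e1 := href n (by omega)
    have e2 := href (n + 1) hn
    rw [succ_nsmul, ← add_assoc] at e2 ⊢
    have hn' : n * m ≤ 17 * m := Nat.mul_le_mul_right _ (by omega)
    have dp : ∀ t, 8 * q ≤ t → t ≤ 8 * q + 18 * m → Deep Λ (2 * q) (x + t • st4 e) :=
      fun t a b => mk_deep h hκ (by omega) (by omega)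
    refine (ih (by omega)).tail ⟨e, rfl, ed_of h0 hw hr (fun v hv => hN v ?_ ?_) ?_⟩
    · have := zd_line (Bs m o k) e (n * m)
      rw [← Bs_add] at this
      have := zd_tri v (Bs m o (k + n • st4 e)) (Bs m o k)
      have := zd_tri v (Bs m o k) x
      omega
    · refine ⟨x + (8 * q + n * m) • st4 e,
        dp (8 * q + n * m) (by omega) (by omega) _ (by simp [zd]), ?_⟩
      have := hr (k + n • st4 e)
      rw [← e1]
      simp only [zd] at hv ⊢
      omega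
    · intro z a1 a2 a3 a4 y hy _
      rw [e1, e2, add_mul, one_mul] at a1 a2 a3 a4
      obtain ⟨t, t1, t2, rfl⟩ : ∃ t : ℕ, 8 * q + n * m ≤ t ∧ t ≤ 8 * q + (n * m + m) ∧
          z = x + t • st4 e := by
        generalize n * m = s at *
        obtain ⟨t, ht⟩ : ∃ t, t = zd z x := ⟨_, rfl⟩
        refine ⟨t, ?_⟩
        simp only [zd] at ht
        fin_cases e <;> simp [st4, Prod.ext_iff] at a1 a2 a3 a4 ⊢ <;> omega
      exact dp t (by omega) (by omega) y hy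

open Classical in
theorem pth_rch {k k' : ℤ × ℤ} {S S₀ : Set (ℤ × ℤ)} (h : Pth (Ed Λ q m w o Nr ref) k' k S)
    (hS : S ⊆ S₀) : Rch (Deep (Λ.filter fun v => cel m w o v ∈ S₀) (2 * q)) (ref k) (ref k') := by
  induction h with
  | refl => exact rch_refl _
  | step h _ h3 ih =>
    refine (rch_mono (fun x hx y hy => ?_) h3.2).trans (ih fun v hv => hS (Or.inl hv))
    rw [mem_filter]
    refine ⟨(hx y hy).1, hS ?_⟩
    rcases (hx y hy).2 with c | c | c
    exacts [Or.inr (Or.inl c), Or.inr (Or.inr c), Or.inl (c ▸ h.head)]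

theorem side_of {T M : ℕ} [NeZero M] {U : Finset (ℤ × ℤ)} (hU : U ⊆ Λ) (hΛ : ∀ v ∈ Λ, zd v 0 ≤ T)
    (hx : Touch Λ x) {ρ : ℕ} (hM : 2 * T + ρ + 2 < M) (h : ∀ v ∈ Λ, zd v x ≤ ρ + 1 → v ∈ U) :
    Side (U.image (prj M)) (Λ.image (prj M)) (prj M x) ρ := by
  intro y hy _ k
  refine ⟨fun c => image_subset_image hU c, fun c => ?_⟩
  obtain ⟨u, u1, u2⟩ := touch_near hx
  have e : y - prj M (cn k) = prj M (x + lft (y - prj M x) - cn k) := by
    rw [G.prj_sub, G.prj_add, G.add_prj_lft]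
  have d : zd (x + lft (y - prj M x) - cn k) x ≤ ρ + 1 := by
    rw [← zd_lft] at hy
    generalize lft (y - prj M x) = z at hy
    fin_cases k <;> simp [zd, cn] at hy ⊢ <;> omega
  have := hΛ u u1
  have := zd_tri (x + lft (y - prj M x) - cn k) x 0
  have := zd_tri x u 0
  have := zd_comm x u
  rw [e] at c ⊢
  exact mem_image_of_mem _ (h _ ((prj_mem hΛ (R := T + ρ + 2) (by omega) (by omega)).1 c) d)

end ICg

open ICg in
theorem pathStmt : PathStmt := by
  classical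
  intro C
  refine ⟨108 * (C * (12 * C + 41) + 40) + C + 8, fun Λ₀ => ⟨16 * Λ₀ + 48 + (19 + 19) +
    (8 * Λ₀ + 8) ^ 2, fun κ Λ T r q a b ea eb _ hκ hD hΛ hT hq hr hrT ha hb hab hc M _ hM => ?_⟩⟩
  obtain ⟨m, hm⟩ : ∃ m, m = 108 * q := ⟨_, rfl⟩
  obtain ⟨w, hw⟩ : ∃ w, w = 106 * q := ⟨_, rfl⟩
  have r1 : C * (12 * C + 41) * m + 40 * m ≤ r := by
    refine le_trans ?_ hr
    rw [hm]
    nlinarith [Nat.zero_le (C * q), Nat.zero_le q]
  have h0 : 0 < w := by omega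
  have h1 : w < m := by omega
  obtain ⟨o₁, i₁, j₁, x1, x2⟩ := exists_off (q := q) (by omega) hm a.1 b.1
  obtain ⟨o₂, i₂, j₂, y1, y2⟩ := exists_off (q := q) (by omega) hm a.2 b.2
  obtain ⟨o, ka, kb, A, B⟩ : ∃ o ka kb : ℤ × ℤ,
      ((Bs m o ka).1 + 17 * q ≤ a.1 ∧ a.1 < (Bs m o ka).1 + 89 * q ∧
        (Bs m o ka).2 + 17 * q ≤ a.2 ∧ a.2 < (Bs m o ka).2 + 89 * q) ∧
      (Bs m o kb).1 + 17 * q ≤ b.1 ∧ b.1 < (Bs m o kb).1 + 89 * q ∧
        (Bs m o kb).2 + 17 * q ≤ b.2 ∧ b.2 < (Bs m o kb).2 + 89 * q :=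
    ⟨(o₁, o₂), (i₁, i₂), (j₁, j₂), ⟨x1.1, x1.2, y1⟩, x2.1, x2.2, y2⟩
  clear x1 x2 y1 y2
  have A' : zd (Bs m o ka) a ≤ m := by simp only [zd]; omega
  have B' : zd (Bs m o kb) b ≤ m := by simp only [zd]; omega
  obtain ⟨ref, hra, hrb⟩ : ∃ ref : ℤ × ℤ → ℤ × ℤ,
      (∀ k, zd (Bs m o k) a ≤ 20 * m → ref k = Bs m o k + (a + (8 * q) • st4 ea - Bs m o ka)) ∧
      ∀ k, ¬ zd (Bs m o k) a ≤ 20 * m → ref k = Bs m o k + (b + (8 * q) • st4 eb - Bs m o kb) :=
    ⟨fun k => if zd (Bs m o k) a ≤ 20 * m then _ else _, fun k c => if_pos c, fun k c => if_neg c⟩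
  have hR : RefOK q m w o ref := fun k => by
    have := zd_line a ea (8 * q)
    have := zd_line b eb (8 * q)
    by_cases c : zd (Bs m o k) a ≤ 20 * m
    · rw [hra k c]
      generalize a + (8 * q) • st4 ea = z at *
      simp only [zd, Prod.fst_add, Prod.snd_add, Prod.fst_sub, Prod.snd_sub] at *
      omega
    · rw [hrb k c]
      generalize b + (8 * q) • st4 eb = z at *
      simp only [zd, Prod.fst_add, Prod.snd_add, Prod.fst_sub, Prod.snd_sub] at *
      omega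
  have near : ∀ (k x : ℤ × ℤ) (e : Fin 4) (i : ℕ), i ≤ 18 → zd (Bs m o k) x ≤ m →
      zd (Bs m o (k + i • st4 e)) x ≤ 19 * m := fun k x e i hi c => by
    have := zd_line (Bs m o k) e (i * m)
    rw [← Bs_add] at this
    have := zd_tri (Bs m o (k + i • st4 e)) (Bs m o k) x
    have := Nat.mul_le_mul_right m hi
    omega
  have refa : ∀ i ≤ 18, ref (ka + i • st4 ea) = a + (8 * q + i * m) • st4 ea := fun i hi => by
    rw [hra _ ((near ka a ea i hi A').trans (by omega)), Bs_add, add_smul]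
    abel
  have refb : ∀ i ≤ 18, ref (kb + i • st4 eb) = b + (8 * q + i * m) • st4 eb := fun i hi => by
    have := near kb b eb i hi B'
    have := zd_tri a (Bs m o (kb + i • st4 eb)) b
    have := zd_comm a (Bs m o (kb + i • st4 eb))
    rw [hrb _ (by omega), Bs_add, add_smul]
    abel
  obtain ⟨Nr, hN⟩ : ∃ Nr : ℤ × ℤ → Prop, ∀ v, Nr v ↔
      (v ∈ Λ ∨ zd v a ≤ 21 * m ∨ zd v b ≤ 21 * m) ∧ ∃ u ∈ Λ, zd v u ≤ 3 * m :=
    ⟨_, fun _ => Iff.rfl⟩
  have Cm : C * (2 * (3 * m)) = 6 * (C * m) := by ring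
  have mid : Rch (Deep Λ (3 * m)) (ref (ka + 18 • st4 ea)) (ref (kb + 18 • st4 eb)) := by
    rw [refa 18 le_rfl, refb 18 le_rfl]
    refine deep_conn (s := 6 * (C * m) + 20 * m) hD (by omega) (by omega) (by omega) (by omega)
      (le_trans ?_ r1) hc (mk_deep ha hκ (by omega) (by omega)) ((zd_line _ _ _).trans (by omega))
      _ (mk_deep hb hκ (by omega) (by omega)) ((zd_line _ _ _).trans (by omega))
    have : C * 1 ≤ C * m := Nat.mul_le_mul_left _ (by omega)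
    nlinarith
  obtain ⟨S, hS⟩ := exists_pth (E := Ed Λ q m w o Nr ref) (k := ka) (k' := kb)
    (((walk_stem h0 h1 hR ha hκ (by omega) (by omega) (by omega) A'
      (fun v c c' => (hN v).2 ⟨Or.inr (Or.inl c), c'⟩) refa 18 le_rfl).trans
      (walk_deep h0 h1 hR (fun v c => (hN v).2 ⟨Or.inl c, v, c, by simp [zd]⟩) mid)).trans
      (walk_symm (walk_stem h0 h1 hR hb hκ (by omega) (by omega) (by omega) B'
        (fun v c c' => (hN v).2 ⟨Or.inr (Or.inr c), c'⟩) refb 18 le_rfl)))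
  have nr : ∀ v, cel m w o v ∈ S → Nr v := fun v hv => by
    rcases hS.mem hv with c | ⟨j, c, k1, -, -, -, k2⟩
    · have := tri_near h0 h1 (a := 0) (Or.inl c)
      obtain ⟨u, u1, u2⟩ := touch_near hb.touch
      have := zd_tri v (Bs m o kb) b
      have := zd_tri v b u
      have := zd_comm b u
      have : zd v (Bs m o kb) ≤ m := by
        simp only [cel, Prod.ext_iff, two_fst, two_snd] at c
        have := (gr_eq_even (by omega) (by omega)).1 c.1
        have := (gr_eq_even (by omega) (by omega)).1 c.2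
        simp only [zd, Bs]
        omega
      exact (hN v).2 ⟨Or.inr (Or.inr (by omega)), u, u1, by omega⟩
    · exact k1.1 v (k2.imp_right Or.inl)
  obtain ⟨U, hU⟩ : ∃ U, U = Λ.filter fun v => cel m w o v ∈ S := ⟨_, rfl⟩
  have mU : ∀ v, v ∈ U ↔ v ∈ Λ ∧ cel m w o v ∈ S := fun v => by rw [hU, mem_filter]
  have sub : U ⊆ Λ := fun v c => ((mU v).1 c).1
  have boxa : ∀ v ∈ Λ, zd v a ≤ 16 * q + 1 → v ∈ U := fun v c c' => (mU v).2 ⟨c, by
    rw [cel_node (k := ka) h1 (by simp only [zd] at c'; omega)]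
    exact hS.head⟩
  have boxb : ∀ v ∈ Λ, zd v b ≤ 16 * q + 1 → v ∈ U := fun v c c' => (mU v).2 ⟨c, by
    rw [cel_node (k := kb) h1 (by simp only [zd] at c'; omega)]
    exact hS.last⟩
  have w0 : (0 : ℤ) < w := by omega
  have w1 : (w : ℤ) < m := by omega
  refine ⟨U.image (prj M), image_subset_image sub, ?_,
    side_of sub hΛ ha.touch (by omega) boxa, side_of sub hΛ hb.touch (by omega) boxb⟩
  rw [← G.prj_add, ← G.prj_add]
  refine corr_of (fun v c => hΛ v (sub c)) ?_ ?_ ?_ (fun y hy => boxb y ?_ ?_) (by omega) hT hM le_rfl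
  · refine allC_sub (Y := (U : Set (ℤ × ℤ)))
      (allC_pre (stp_gr w0 w1 o.1) (stp_gr w0 w1 o.2) hS.allC) (fun v c => ((mU v).1 c).2)
      fun v c c' => ?_
    have out : v ∉ Λ := fun k => c' ((mU v).2 ⟨k, c⟩)
    obtain ⟨y, y1, y2⟩ : ∃ y, (∀ u ∈ Λ, 3 * m < zd y u) ∧ Rch (· ∉ Λ) v y := by
      rcases ((hN v).1 (nr v c)).1 with k | k | k
      exacts [(out k).elim, mk_out ha hκ out k (by omega), mk_out hb hκ out k (by omega)]
    refine ⟨y, fun k => ?_, rch_mono (fun x k k' => k (sub k')) y2⟩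
    obtain ⟨u, u1, u2⟩ := ((hN y).1 (nr y k)).2
    exact (y1 u u1).not_ge u2
  · obtain ⟨Sa, νa, a1, a2, -, a4⟩ := ha.cone
    obtain ⟨Sb, νb, b1, b2, -, b4⟩ := hb.cone
    refine ((cov_pre w0 w1 o.1 o.2 (q := q) (by omega) (by omega) hT S).or
      ((cov_epi a1 (epi_mono a2 (by linarith)) a).or
        (cov_epi b1 (epi_mono b2 (by linarith)) b))).mono (fun v hv => ?_) le_rfl
    have bx := lay_box (fun v c => hΛ v (sub c)) hv
    obtain ⟨⟨f, f1, f2⟩, g, g1, g2⟩ := hv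
    obtain ⟨f3, f4⟩ := (mU f).1 f1
    by_cases c : cel m w o g ∈ S
    · have out : g ∉ Λ := fun k => g1 ((mU g).2 ⟨k, c⟩)
      have key : ∀ (x : ℤ × ℤ) (S : Set (ℤ × ℤ)), (∀ v, zd v 0 ≤ r → (x + v ∈ Λ ↔ v ∈ S)) →
          zd g x ≤ 21 * m → Lay S (v - x) := fun x S k1 k2 => by
        have k : ∀ y, zd y x ≤ r → (y ∈ Λ ↔ y - x ∈ S) := fun y hy => by
          simpa using k1 (y - x) (by rwa [← zd_sub y x x, sub_self] at hy)
        have := zd_tri f v g
        have := zd_tri f g x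
        have := zd_comm v g
        exact ⟨⟨f - x, (k f (by omega)).1 f3, by rwa [zd_sub]⟩, g - x,
          fun k' => out ((k g (by omega)).2 k'), by rwa [zd_sub]⟩
      rcases ((hN g).1 (nr g c)).1 with k | k | k
      exacts [(out k).elim, Or.inr (Or.inl (key a Sa a4 k)), Or.inr (Or.inr (key b Sb b4 k))]
    · exact Or.inl ⟨bx, ⟨f, f4, f2⟩, g, c, g2⟩
  · have := pth_rch hS subset_rfl
    have e1 := refa 0 (by omega)
    have e2 := refb 0 (by omega)
    simp only [zero_smul, add_zero, zero_mul] at e1 e2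
    rwa [e1, e2, ← hU] at this
  · exact mk_deep hb hκ (by omega) (by omega) y hy
  · have := zd_line b eb (8 * q)
    have := zd_tri y (b + (8 * q) • st4 eb) b
    omega

end Vale.Agent.P144Z
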