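import Vale.Agent.P144D.I.Defs
import Vale.Agent.P144D.Geo.B

/-!
Planar tools for corridors and tubes: connected complements, coarse grids and simple paths.
-/

namespace Vale.Agent.P144Z.ICg

open Finset GeoA B5a2

/-! ### Connected complements -/

/-- All points of `G` are connected through `G`. -/
def AllC (G : ℤ × ℤ → Prop) : Prop := ∀ u v, G u → G v → Rch G u v

theorem rch_refl {G : ℤ × ℤ → Prop} (u : ℤ × ℤ) : Rch G u u := Relation.ReflTransGen.refl

theorem rch_mono {G G' : ℤ × ℤ → Prop} (h : ∀ v, G v → G' v) {u v : ℤ × ℤ} (H : Rch G u v) :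
    Rch G' u v := by
  induction H with
  | refl => exact rch_refl _
  | tail _ k ih => exact Relation.ReflTransGen.tail ih ⟨h _ k.1, h _ k.2.1, k.2.2⟩

theorem step_iff {u w : ℤ × ℤ} :
    (w = u + (1, 0) ∨ w = u + (0, 1) ∨ w = u + (-1, 0) ∨ w = u + (0, -1)) ↔
      ∃ a, w = u + st4 a := by
  constructor
  · rintro (h | h | h | h)
    exacts [⟨0, h⟩, ⟨1, h⟩, ⟨2, h⟩, ⟨3, h⟩]
  · rintro ⟨a, h⟩
    fin_cases a
    exacts [Or.inl h, Or.inr (Or.inl h), Or.inr (Or.inr (Or.inl h)), Or.inr (Or.inr (Or.inr h))]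

theorem rch_step {G : ℤ × ℤ → Prop} {u : ℤ × ℤ} (a : Fin 4) (h : G u) (h' : G (u + st4 a)) :
    Rch G u (u + st4 a) := Relation.ReflTransGen.single ⟨h, h', step_iff.2 ⟨a, rfl⟩⟩

theorem st4_add_two (a : Fin 4) : st4 (a + 2) = -st4 a := by
  fin_cases a <;> rfl

/-- Induction along a path. -/
theorem rch_ind {G P : ℤ × ℤ → Prop} {u v : ℤ × ℤ} (H : Rch G u v) (h0 : P u)
    (h1 : ∀ x a, Rch G u x → G x → G (x + st4 a) → P x → P (x + st4 a)) : P v := by
  induction H with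
  | refl => exact h0
  | tail k0 k ih =>
    obtain ⟨a, rfl⟩ := step_iff.1 k.2.2
    exact h1 _ a k0 k.1 k.2.1 ih

theorem rch_ray {G : ℤ × ℤ → Prop} (u : ℤ × ℤ) (a : Fin 4) (n : ℕ)
    (h : ∀ t : ℕ, t ≤ n → G (u + t • st4 a)) : Rch G u (u + n • st4 a) := by
  induction n with
  | zero => simpa using rch_refl u
  | succ n ih =>
    have h1 := h (n + 1) le_rfl
    rw [succ_nsmul, ← add_assoc] at h1 ⊢
    exact (ih fun t ht => h t (by omega)).trans (rch_step a (h n (by omega)) h1)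

theorem rch_row {G : ℤ × ℤ → Prop} (y s t : ℤ)
    (h : ∀ j, min s t ≤ j → j ≤ max s t → G (j, y)) : Rch G (s, y) (t, y) := by
  wlog hst : s ≤ t generalizing s t
  · exact (this t s (fun j h1 h2 => h j (by omega) (by omega)) (by omega)).symm
  obtain ⟨n, rfl⟩ : ∃ n : ℕ, t = s + n := ⟨(t - s).toNat, by omega⟩
  have := rch_ray (G := G) (s, y) 0 n fun t ht => by
    simpa [st4] using h (s + t) (by omega) (by omega)
  simpa [st4] using this

theorem rch_col {G : ℤ × ℤ → Prop} (x s t : ℤ)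
    (h : ∀ j, min s t ≤ j → j ≤ max s t → G (x, j)) : Rch G (x, s) (x, t) := by
  wlog hst : s ≤ t generalizing s t
  · exact (this t s (fun j h1 h2 => h j (by omega) (by omega)) (by omega)).symm
  obtain ⟨n, rfl⟩ : ∃ n : ℕ, t = s + n := ⟨(t - s).toNat, by omega⟩
  have := rch_ray (G := G) (x, s) 1 n fun t ht => by
    simpa [st4] using h (s + t) (by omega) (by omega)
  simpa [st4] using this

/-- Rectangles are connected. -/
theorem rch_rect {G : ℤ × ℤ → Prop} (u v : ℤ × ℤ)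
    (h : ∀ x, min u.1 v.1 ≤ x.1 → x.1 ≤ max u.1 v.1 → min u.2 v.2 ≤ x.2 → x.2 ≤ max u.2 v.2 →
      G x) : Rch G u v :=
  (rch_row (G := G) u.2 u.1 v.1 fun j h1 h2 => h _ h1 h2 (by simp) (by simp)).trans
    (rch_col v.1 u.2 v.2 fun j h1 h2 => h _ (by simp) (by simp) h1 h2)

/-- A set is added whose outer neighbours are connected. -/
theorem attach {X R : Set (ℤ × ℤ)} (h : AllC (· ∉ X))
    (hR : ∀ u v a b, u ∉ X ∪ R → v ∉ X ∪ R → u + st4 a ∈ R → v + st4 b ∈ R →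
      Rch (· ∉ X ∪ R) u v) : AllC (· ∉ X ∪ R) := by
  intro u v hu hv
  have key : (v ∉ R → Rch (· ∉ X ∪ R) u v) ∧
      (v ∈ R → ∃ y a, y ∉ X ∪ R ∧ y + st4 a ∈ R ∧ Rch (· ∉ X ∪ R) u y) := by
    refine rch_ind (P := fun x => (x ∉ R → Rch (· ∉ X ∪ R) u x) ∧
      (x ∈ R → ∃ y a, y ∉ X ∪ R ∧ y + st4 a ∈ R ∧ Rch (· ∉ X ∪ R) u y))
      (h u v (fun k => hu (Or.inl k)) fun k => hv (Or.inl k))
      ⟨fun _ => rch_refl u, fun k => (hu (Or.inr k)).elim⟩ fun x a _ h1 h2 ih => ?_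
    by_cases hx : x ∈ R
    · obtain ⟨y, b, k1, k2, k3⟩ := ih.2 hx
      refine ⟨fun k => k3.trans (hR y _ b (a + 2) k1 (fun k' => k'.elim h2 k) k2 ?_),
        fun _ => ⟨y, b, k1, k2, k3⟩⟩
      rwa [st4_add_two, add_neg_cancel_right]
    · have k0 : x ∉ X ∪ R := fun k' => k'.elim h1 hx
      exact ⟨fun k => (ih.1 hx).trans (rch_step a k0 fun k' => k'.elim h2 k),
        fun k => ⟨x, a, k0, k, ih.1 hx⟩⟩
  exact key.1 fun k => hv (Or.inr k)

/-- Points are removed that are connected to the complement. -/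
theorem allC_sub {X Y : Set (ℤ × ℤ)} (h : AllC (· ∉ X)) (hY : Y ⊆ X)
    (hv : ∀ v ∈ X, v ∉ Y → ∃ u, u ∉ X ∧ Rch (· ∉ Y) v u) : AllC (· ∉ Y) := by
  have key : ∀ v, v ∉ Y → ∃ u, u ∉ X ∧ Rch (· ∉ Y) v u := fun v k => by
    by_cases k' : v ∈ X
    exacts [hv v k' k, ⟨v, k', rch_refl v⟩]
  intro u v hu hv
  obtain ⟨u', a1, a2⟩ := key u hu
  obtain ⟨v', b1, b2⟩ := key v hv
  exact a2.trans ((rch_mono (fun x k k' => k (hY k')) (h u' v' a1 b1)).trans b2.symm)

/-- The outside of a square is connected. -/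
theorem out_box (c : ℤ × ℤ) (T : ℕ) : AllC fun v => T < zd v c := by
  have key : ∀ (R : ℕ) u, T < zd u c → zd u c ≤ R →
      Rch (fun v => T < zd v c) u (c.1 + R, c.2 + R) := by
    rintro R ⟨x, y⟩ h1 h2
    simp only [zd] at h1 h2
    by_cases h : T < (x - c.1).natAbs
    · exact (rch_col x y (c.2 + R) fun j _ _ => by simp only [zd]; omega).trans
        (rch_row (c.2 + R) x (c.1 + R) fun j _ _ => by simp only [zd]; omega)
    · exact (rch_row y x (c.1 + R) fun j _ _ => by simp only [zd]; omega).trans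
        (rch_col (c.1 + R) y (c.2 + R) fun j _ _ => by simp only [zd]; omega)
  intro u v hu hv
  exact (key (zd u c + zd v c) u hu (by omega)).trans (key _ v hv (by omega)).symm

theorem allC_single (x : ℤ × ℤ) : AllC (· ∉ ({x} : Set (ℤ × ℤ))) := by
  have e : ∀ v, v ∉ ({x} : Set (ℤ × ℤ)) ↔ 0 < zd v x := fun v => by
    rw [Set.mem_singleton_iff, Prod.ext_iff, zd]
    omega
  intro u v hu hv
  exact rch_mono (fun w k => (e w).2 k) (out_box x 0 u v ((e u).1 hu) ((e v).1 hv))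

/-- A new leaf. -/
theorem attach_leaf {X : Set (ℤ × ℤ)} (h : AllC (· ∉ X)) {x : ℤ × ℤ} {a : Fin 4}
    (h1 : ∀ v, zd v x ≤ 1 → v ∉ X) (h2 : x + st4 a + st4 a ∈ X) :
    AllC (· ∉ X ∪ {x, x + st4 a}) := by
  have hG : ∀ v, zd v x ≤ 1 → v ≠ x → v ≠ x + st4 a → v ∉ X ∪ {x, x + st4 a} :=
    fun v k1 k2 k3 k => k.elim (h1 v k1) fun k' => k'.elim k2 k3
  have ring : ∀ u, zd u x ≤ 1 → u ≠ x → u ≠ x + st4 a →
      Rch (· ∉ X ∪ {x, x + st4 a}) u (x - st4 a) := by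
    obtain ⟨p, q⟩ := x
    rintro ⟨s, t⟩ k1 k2 k3
    generalize X ∪ {(p, q), (p, q) + st4 a} = Y at hG
    have hG' : ∀ i j, (i - p).natAbs ≤ 1 → (j - q).natAbs ≤ 1 → ¬ (i = p ∧ j = q) →
        ¬ (i = p + (st4 a).1 ∧ j = q + (st4 a).2) → (i, j) ∉ Y := fun i j m1 m2 m3 m4 =>
      hG _ (by simp only [zd]; omega) (by simpa using m3) (by simpa [Prod.ext_iff] using m4)
    simp only [zd, ne_eq, Prod.ext_iff, Prod.fst_add, Prod.snd_add] at k1 k2 k3
    have e : (p, q) - st4 a = (p - (st4 a).1, q - (st4 a).2) := rfl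
    rw [e]
    have c : (st4 a).2 = 0 ∧ ((st4 a).1 = 1 ∨ (st4 a).1 = -1) ∨
        (st4 a).1 = 0 ∧ ((st4 a).2 = 1 ∨ (st4 a).2 = -1) := by fin_cases a <;> simp [st4]
    rcases c with c | c
    · exact (rch_row t s _ fun j _ _ => hG' _ _ (by omega) (by omega) (by omega) (by omega)).trans
        (rch_col _ t _ fun j _ _ => hG' _ _ (by omega) (by omega) (by omega) (by omega))
    · exact (rch_col s t _ fun j _ _ => hG' _ _ (by omega) (by omega) (by omega) (by omega)).trans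
        (rch_row _ s _ fun j _ _ => hG' _ _ (by omega) (by omega) (by omega) (by omega))
  have near : ∀ u b, u ∉ X ∪ {x, x + st4 a} → u + st4 b ∈ ({x, x + st4 a} : Set (ℤ × ℤ)) →
      Rch (· ∉ X ∪ {x, x + st4 a}) u (x - st4 a) := by
    intro u b k1 k2
    have k3 : u ≠ x + st4 a + st4 a := fun k => k1 (Or.inl (k ▸ h2))
    have k4 : u ≠ x := fun k => k1 (Or.inr (Or.inl k))
    refine ring u ?_ k4 fun k => k1 (Or.inr (Or.inr k))
    simp only [Set.mem_insert_iff, Set.mem_singleton_iff, ne_eq, Prod.ext_iff, Prod.fst_add,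
      Prod.snd_add, zd] at k2 k3 k4 ⊢
    fin_cases a <;> fin_cases b <;> simp [st4] at k2 k3 <;> omega
  exact attach h fun u v b c k1 k2 k3 k4 => (near u b k1 k3).trans (near v c k2 k4).symm

/-! ### Coarse grids -/

/-- A map with steps zero and one. -/
def Stp (φ : ℤ → ℤ) : Prop :=
  (∀ x, φ (x + 1) = φ x ∨ φ (x + 1) = φ x + 1) ∧ Function.Surjective φ

theorem Stp.mono {φ : ℤ → ℤ} (h : Stp φ) : Monotone φ :=
  monotone_int_of_le_succ fun x => by have := h.1 x; omega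

theorem Stp.jump {φ : ℤ → ℤ} (h : Stp φ) (k : ℤ) : ∃ x, φ x = k ∧ φ (x + 1) = k + 1 := by
  obtain ⟨x₀, h0⟩ := h.2 k
  obtain ⟨x₁, h1⟩ := h.2 (k + 1)
  obtain ⟨x, k1, k2⟩ := Int.exists_greatest_of_bdd (P := fun x => φ x ≤ k)
    ⟨x₁, fun z hz => by
      by_contra k
      have := h.mono (show x₁ ≤ z by omega)
      omega⟩ ⟨x₀, h0.le⟩
  have k3 : ¬ φ (x + 1) ≤ k := fun k => by have := k2 _ k; omega
  have := h.1 x
  exact ⟨x, by omega, by omega⟩

/-- The union of the cells of `S`. -/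
def pre (φ ψ : ℤ → ℤ) (S : Set (ℤ × ℤ)) : Set (ℤ × ℤ) := {v | (φ v.1, ψ v.2) ∈ S}

theorem mem_pre {φ ψ : ℤ → ℤ} {S : Set (ℤ × ℤ)} {v : ℤ × ℤ} :
    v ∈ pre φ ψ S ↔ (φ v.1, ψ v.2) ∈ S := Iff.rfl

theorem allC_pre {φ ψ : ℤ → ℤ} (hφ : Stp φ) (hψ : Stp ψ) {S : Set (ℤ × ℤ)} (h : AllC (· ∉ S)) :
    AllC (· ∉ pre φ ψ S) := by
  have fib : ∀ u v : ℤ × ℤ, u ∉ pre φ ψ S → (φ u.1, ψ u.2) = (φ v.1, ψ v.2) →
      Rch (· ∉ pre φ ψ S) u v := by
    intro u v hu e
    obtain ⟨e1, e2⟩ := Prod.ext_iff.1 e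
    refine rch_rect u v fun x a1 a2 a3 a4 k => hu ?_
    have b1 := hφ.mono a1
    have b2 := hφ.mono a2
    have b3 := hψ.mono a3
    have b4 := hψ.mono a4
    rw [hφ.mono.map_min] at b1
    rw [hφ.mono.map_max] at b2
    rw [hψ.mono.map_min] at b3
    rw [hψ.mono.map_max] at b4
    rw [mem_pre] at k ⊢
    simp only at e1 e2
    rwa [show φ u.1 = φ x.1 by omega, show ψ u.2 = ψ x.2 by omega]
  have lift : ∀ (k : ℤ × ℤ) (a : Fin 4), ∃ y : ℤ × ℤ, (φ y.1, ψ y.2) = k ∧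
      (φ (y + st4 a).1, ψ (y + st4 a).2) = k + st4 a := by
    intro k a
    obtain ⟨x, a1, a2⟩ := hφ.jump k.1
    obtain ⟨x', a3, a4⟩ := hφ.jump (k.1 - 1)
    obtain ⟨y, b1, b2⟩ := hψ.jump k.2
    obtain ⟨y', b3, b4⟩ := hψ.jump (k.2 - 1)
    fin_cases a
    · exact ⟨(x, y), by simp [a1, b1], by simp [st4, a2, b1, Prod.ext_iff]⟩
    · exact ⟨(x, y), by simp [a1, b1], by simp [st4, a1, b2, Prod.ext_iff]⟩
    · exact ⟨(x' + 1, y), by simp [a4, b1], by simp [st4, a3, b1, Prod.ext_iff]; omega⟩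
    · exact ⟨(x, y' + 1), by simp [a1, b4], by simp [st4, a1, b3, Prod.ext_iff]; omega⟩
  intro u v hu hv
  refine rch_ind (P := fun k => ∀ v : ℤ × ℤ, (φ v.1, ψ v.2) = k → Rch (· ∉ pre φ ψ S) u v)
    (h _ _ hu hv) (fun v e => fib u v hu e.symm) (fun k a _ h1 h2 ih v e => ?_) v rfl
  obtain ⟨y, e1, e2⟩ := lift k a
  have k1 : y ∉ pre φ ψ S := by rwa [mem_pre, e1]
  have k2 : y + st4 a ∉ pre φ ψ S := by rwa [mem_pre, e2]
  exact (ih y e1).trans ((rch_step a k1 k2).trans (fib _ v k2 (e2.trans e.symm)))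

/-- The doubled coarse grid with period `m`, nodes of width `w` and offset `o`. -/
def gr (m w o x : ℤ) : ℤ := 2 * ((x - o) / m) + if (x - o) % m < w then 0 else 1

theorem exists_cell {m : ℤ} (hm : 0 < m) (o x : ℤ) : ∃ k, o + m * k ≤ x ∧ x < o + m * k + m := by
  have h1 := Int.mul_ediv_add_emod (x - o) m
  have h2 := Int.emod_nonneg (x - o) hm.ne'
  have h3 := Int.emod_lt_of_pos (x - o) hm
  exact ⟨(x - o) / m, by omega, by omega⟩

theorem gr_of_cell {m w o x k : ℤ} (hm : 0 < m) (h1 : o + m * k ≤ x) (h2 : x < o + m * k + m) :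
    gr m w o x = 2 * k + if x < o + m * k + w then 0 else 1 := by
  obtain ⟨e1, e2⟩ := (Int.ediv_emod_unique (a := x - o) (r := x - o - m * k) (q := k) hm).2
    ⟨by ring, by omega, by omega⟩
  rw [gr, e1, e2]
  congr 1
  split_ifs <;> omega

theorem gr_eq_even {m w o x k : ℤ} (hm : 0 < m) (hw : w ≤ m) :
    gr m w o x = 2 * k ↔ o + m * k ≤ x ∧ x < o + m * k + w := by
  constructor
  · intro h
    obtain ⟨j, h1, h2⟩ := exists_cell hm o x
    rw [gr_of_cell hm h1 h2] at h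
    split_ifs at h
    · obtain rfl : j = k := by omega
      omega
    · omega
  · intro h
    rw [gr_of_cell hm h.1 (by omega), if_pos h.2, add_zero]

theorem gr_eq_odd {m w o x k : ℤ} (hm : 0 < m) (hw : 0 ≤ w) :
    gr m w o x = 2 * k + 1 ↔ o + m * k + w ≤ x ∧ x < o + m * k + m := by
  constructor
  · intro h
    obtain ⟨j, h1, h2⟩ := exists_cell hm o x
    rw [gr_of_cell hm h1 h2] at h
    split_ifs at h
    · omega
    · obtain rfl : j = k := by omega
      omega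
  · intro h
    rw [gr_of_cell hm (by omega) h.2, if_neg (by omega)]

theorem stp_gr {m w : ℤ} (h0 : 0 < w) (hw : w < m) (o : ℤ) : Stp (gr m w o) := by
  have hm : 0 < m := h0.trans hw
  refine ⟨fun x => ?_, fun k => ?_⟩
  · obtain ⟨j, h1, h2⟩ := exists_cell hm o x
    rw [gr_of_cell hm h1 h2]
    by_cases h : x + 1 < o + m * j + m
    · rw [gr_of_cell hm (by omega) h]
      split_ifs <;> omega
    · rw [(gr_eq_even (k := j + 1) hm hw.le).2 (by rw [mul_add]; omega)]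
      split_ifs <;> omega
  · obtain ⟨j, rfl | rfl⟩ := Int.even_or_odd' k
    · exact ⟨o + m * j, (gr_eq_even hm hw.le).2 (by omega)⟩
    · exact ⟨o + m * j + w, (gr_eq_odd hm h0.le).2 (by omega)⟩

/-! ### Simple paths in the doubled grid -/

/-- The nodes and edges of a simple path from `k` to `k'` with steps in `E`. -/
inductive Pth (E : ℤ × ℤ → Fin 4 → Prop) (k' : ℤ × ℤ) : ℤ × ℤ → Set (ℤ × ℤ) → Prop
  | refl : Pth E k' k' {2 • k'}
  | step {k : ℤ × ℤ} {a : Fin 4} {S : Set (ℤ × ℤ)} : Pth E k' (k + st4 a) S → 2 • k ∉ S →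
      E k a → Pth E k' k (S ∪ {2 • k, 2 • k + st4 a})

variable {E : ℤ × ℤ → Fin 4 → Prop} {k k' : ℤ × ℤ} {S : Set (ℤ × ℤ)}

theorem Pth.head (h : Pth E k' k S) : 2 • k ∈ S := by
  cases h with
  | refl => rfl
  | step => exact Or.inr (Or.inl rfl)

theorem Pth.last (h : Pth E k' k S) : 2 • k' ∈ S := by
  induction h with
  | refl => rfl
  | step _ _ _ ih => exact Or.inl ih

/-- The points of a path. -/
theorem Pth.mem (h : Pth E k' k S) {v : ℤ × ℤ} (hv : v ∈ S) :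
    v = 2 • k' ∨ ∃ j a, E j a ∧ 2 • j ∈ S ∧ 2 • j + st4 a ∈ S ∧ 2 • (j + st4 a) ∈ S ∧
      (v = 2 • j ∨ v = 2 • j + st4 a) := by
  induction h with
  | refl => exact Or.inl hv
  | step h _ h3 ih =>
    rcases hv with hv | hv
    · exact (ih hv).imp_right fun ⟨j, a, k1, k2, k3, k4, k5⟩ =>
        ⟨j, a, k1, Or.inl k2, Or.inl k3, Or.inl k4, k5⟩
    · exact Or.inr ⟨_, _, h3, Or.inr (Or.inl rfl), Or.inr (Or.inr rfl), Or.inl h.head, hv⟩

theorem two_fst (k : ℤ × ℤ) : (2 • k).1 = 2 * k.1 := by simp [two_smul, two_mul]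

theorem two_snd (k : ℤ × ℤ) : (2 • k).2 = 2 * k.2 := by simp [two_smul, two_mul]

/-- The four steps in coordinates. -/
theorem st4_cases (a : Fin 4) : (st4 a).2 = 0 ∧ ((st4 a).1 = 1 ∨ (st4 a).1 = -1) ∨
    (st4 a).1 = 0 ∧ ((st4 a).2 = 1 ∨ (st4 a).2 = -1) := by fin_cases a <;> simp [st4]

theorem two_ne (j k : ℤ × ℤ) (a : Fin 4) : 2 • j ≠ 2 • k + st4 a := by
  have := st4_cases a
  simp only [ne_eq, Prod.ext_iff, two_fst, two_snd, Prod.fst_add, Prod.snd_add]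
  omega

theorem two_inj {j k : ℤ × ℤ} (h : 2 • j = 2 • k) : j = k := by
  simp only [Prod.ext_iff, two_fst, two_snd] at h ⊢
  omega

theorem Pth.sub (h : Pth E k' k S) {j : ℤ × ℤ} (hj : 2 • j ∈ S) : ∃ S', Pth E k' j S' := by
  induction h with
  | refl => exact ⟨_, by rw [two_inj hj]; exact Pth.refl⟩
  | step h h2 h3 ih =>
    rcases hj with hj | hj | hj
    · exact ih hj
    · exact ⟨_, by rw [two_inj hj]; exact h.step h2 h3⟩
    · exact (two_ne _ _ _ hj).elim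

/-- Loop erasure. -/
theorem exists_pth (h : Relation.ReflTransGen (fun u v => ∃ a, v = u + st4 a ∧ E u a) k k') :
    ∃ S, Pth E k' k S := by
  induction h using Relation.ReflTransGen.head_induction_on with
  | refl => exact ⟨_, Pth.refl⟩
  | @head u v h1 _ ih =>
    obtain ⟨a, rfl, h1⟩ := h1
    obtain ⟨S, hS⟩ := ih
    by_cases h : 2 • u ∈ S
    exacts [hS.sub h, ⟨_, hS.step h h1⟩]

/-- The complement of a simple path is connected. -/
theorem Pth.allC (h : Pth E k' k S) : AllC (· ∉ S) := by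
  induction h with
  | refl => exact allC_single _
  | @step k a S h h2 _ ih =>
    refine attach_leaf ih (fun v hv k1 => h2 ?_) ?_
    · have key : ∀ j : ℤ × ℤ, zd (2 • j) (2 • k) ≤ 1 → j = k := fun j hj => by
        simp only [zd, Prod.ext_iff, two_fst, two_snd] at hj ⊢
        omega
      rcases h.mem k1 with rfl | ⟨j, b, -, m1, -, m2, rfl | rfl⟩
      · exact key _ hv ▸ k1
      · exact key _ hv ▸ k1
      · have : k = j ∨ k = j + st4 b := by
          have := st4_cases b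
          simp only [zd, Prod.ext_iff, two_fst, two_snd, Prod.fst_add, Prod.snd_add] at hv ⊢
          omega
        rcases this with rfl | rfl
        exacts [m1, m2]
    · have := h.head
      rwa [smul_add, two_smul ℕ (st4 a), ← add_assoc] at this

end Vale.Agent.P144Z.ICg
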