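import Vale.Agent.P144D.I.Cg.Base

/-!
From planar sets to corridors: the boundary layer, the chain of squares, the torus.
-/

namespace Vale.Agent.P144Z.ICg

open Finset GeoA B5a2

/-! ### The boundary layer -/

/-- The points of `P` are covered by at most `N` points in each row and in each column. -/
def Cov (P : ℤ × ℤ → Prop) (N : ℕ) : Prop :=
  ∃ H V : ℤ → Finset ℤ, (∀ t, (H t).card ≤ N ∧ (V t).card ≤ N) ∧
    ∀ v, P v → v.1 ∈ H v.2 ∨ v.2 ∈ V v.1

theorem Cov.mono {P P' : ℤ × ℤ → Prop} {N N' : ℕ} (h : Cov P N) (hP : ∀ v, P' v → P v)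
    (hN : N ≤ N') : Cov P' N' := by
  obtain ⟨H, V, h1, h2⟩ := h
  exact ⟨H, V, fun t => ⟨(h1 t).1.trans hN, (h1 t).2.trans hN⟩, fun v k => h2 v (hP v k)⟩

theorem Cov.or {P P' : ℤ × ℤ → Prop} {N N' : ℕ} (h : Cov P N) (h' : Cov P' N') :
    Cov (fun v => P v ∨ P' v) (N + N') := by
  obtain ⟨H, V, h1, h2⟩ := h
  obtain ⟨H', V', h3, h4⟩ := h'
  refine ⟨fun t => H t ∪ H' t, fun t => V t ∪ V' t, fun t => ⟨?_, ?_⟩, fun v k => ?_⟩
  · exact (card_union_le _ _).trans (Nat.add_le_add (h1 t).1 (h3 t).1)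
  · exact (card_union_le _ _).trans (Nat.add_le_add (h1 t).2 (h3 t).2)
  · simp only [mem_union]
    rcases k with k | k
    · exact (h2 v k).imp Or.inl Or.inl
    · exact (h4 v k).imp Or.inr Or.inr

theorem cov_row (y : ℤ) (d : ℕ) : Cov (fun v => (v.2 - y).natAbs ≤ d) (2 * d + 1) :=
  ⟨fun _ => ∅, fun _ => Icc (y - d) (y + d), fun _ => ⟨by simp, by rw [Int.card_Icc]; omega⟩,
    fun v k => Or.inr (by rw [mem_Icc]; omega)⟩

theorem cov_col (x : ℤ) (d : ℕ) : Cov (fun v => (v.1 - x).natAbs ≤ d) (2 * d + 1) :=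
  ⟨fun _ => Icc (x - d) (x + d), fun _ => ∅, fun _ => ⟨by rw [Int.card_Icc]; omega, by simp⟩,
    fun v k => Or.inl (by rw [mem_Icc]; omega)⟩

theorem lay_inter {X Y : Set (ℤ × ℤ)} {v : ℤ × ℤ} (h : Lay (X ∩ Y) v) : Lay X v ∨ Lay Y v := by
  obtain ⟨⟨f, h1, h2⟩, g, h3, h4⟩ := h
  by_cases k : g ∈ X
  exacts [Or.inr ⟨⟨f, h1.2, h2⟩, g, fun k' => h3 ⟨k, k'⟩, h4⟩, Or.inl ⟨⟨f, h1.1, h2⟩, g, k, h4⟩]

theorem lay_compl {X : Set (ℤ × ℤ)} {v : ℤ × ℤ} (h : Lay Xᶜ v) : Lay X v := by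
  obtain ⟨⟨f, h1, h2⟩, g, h3, h4⟩ := h
  exact ⟨⟨g, not_not.1 h3, h4⟩, f, h1, h2⟩

theorem lay_diff {X Y : Set (ℤ × ℤ)} {v : ℤ × ℤ} (h : Lay (X \ Y) v) : Lay X v ∨ Lay Y v :=
  (lay_inter h).imp_right lay_compl

theorem lay_union {X Y : Set (ℤ × ℤ)} {v : ℤ × ℤ} (h : Lay (X ∪ Y) v) : Lay X v ∨ Lay Y v := by
  obtain ⟨⟨f, h1, h2⟩, g, h3, h4⟩ := h
  exact h1.imp (fun k => ⟨⟨f, k, h2⟩, g, fun k' => h3 (Or.inl k'), h4⟩)
    fun k => ⟨⟨f, k, h2⟩, g, fun k' => h3 (Or.inr k'), h4⟩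

theorem lay_box {X : Set (ℤ × ℤ)} {T : ℕ} (hX : ∀ v ∈ X, zd v 0 ≤ T) {v : ℤ × ℤ} (h : Lay X v) :
    zd v 0 ≤ T + 2 := by
  obtain ⟨⟨f, h1, h2⟩, -⟩ := h
  have := hX f h1
  have := zd_tri v f 0
  have := zd_comm v f
  omega

/-- The number of points near a jump. -/
theorem card_jump {φ : ℤ → ℤ} (hφ : Monotone φ) (T n : ℕ) (h : φ (T + 4) ≤ φ (-T) + n) :
    ((Icc (-(T + 2 : ℤ)) (T + 2)).filter fun x => φ (x - 2) ≠ φ (x + 2)).card ≤ 4 * (n + 1) := by
  have := card_le_card_of_injOn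
    (s := (Icc (-(T + 2 : ℤ)) (T + 2)).filter fun x => φ (x - 2) ≠ φ (x + 2))
    (t := Icc (φ (-T)) (φ (-T) + n) ×ˢ Icc (0 : ℤ) 3) (fun x => (φ (x + 2), x % 4))
    (fun x hx => by
      simp only [coe_filter, mem_Icc, Set.mem_ofPred_eq] at hx
      have h1 := hφ (show -(T : ℤ) ≤ x + 2 by omega)
      have h2 := hφ (show x + 2 ≤ T + 4 by omega)
      simp only [coe_product, coe_Icc, Set.mem_prod, Set.mem_Icc]
      omega)
    (fun x hx y hy e => by
      simp only [coe_filter, mem_Icc, Set.mem_ofPred_eq] at hx hy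
      obtain ⟨e1, e2⟩ := Prod.ext_iff.1 e
      simp only at e1 e2
      by_contra k
      rcases lt_or_gt_of_ne k with k | k
      · have h1 := hφ (show x + 2 ≤ y - 2 by omega)
        have h2 := hφ (show y - 2 ≤ y + 2 by omega)
        omega
      · have h1 := hφ (show y + 2 ≤ x - 2 by omega)
        have h2 := hφ (show x - 2 ≤ x + 2 by omega)
        omega)
  rw [card_product, Int.card_Icc, Int.card_Icc] at this
  have e1 : (φ (-T) + n + 1 - φ (-T)).toNat = n + 1 := by omega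
  have e2 : ((3 : ℤ) + 1 - 0).toNat = 4 := rfl
  rw [e1, e2] at this
  omega

theorem gr_add {m w o x : ℤ} (hm : 0 < m) (n : ℤ) :
    gr m w o (x + m * n) = gr m w o x + 2 * n := by
  obtain ⟨k, h1, h2⟩ := exists_cell hm o x
  rw [gr_of_cell hm h1 h2, gr_of_cell (k := k + n) hm (by rw [mul_add]; omega)
    (by rw [mul_add]; omega), mul_add m]
  split_ifs <;> omega

/-- The layer of a union of cells. -/
theorem cov_pre {m w : ℤ} (h0 : 0 < w) (hw : w < m) (o o' : ℤ) {q T L : ℕ} (h4 : 4 ≤ q)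
    (hq : (q : ℤ) ≤ m) (hT : T ≤ L * q) (S : Set (ℤ × ℤ)) :
    Cov (fun v => zd v 0 ≤ T + 2 ∧ Lay (pre (gr m w o) (gr m w o') S) v) (16 * L + 48) := by
  have hm : 0 < m := h0.trans hw
  have key : ∀ o, gr m w o (T + 4) ≤ gr m w o (-T) + (4 * L + 2 : ℕ) := fun o => by
    have h1 : (T : ℤ) ≤ L * q := by exact_mod_cast hT
    have h2 : (L : ℤ) * q ≤ L * m := mul_le_mul_of_nonneg_left hq (by omega)
    have h5 : (4 : ℤ) ≤ q := by omega
    have h3 := (stp_gr h0 hw o).mono (show (T : ℤ) + 4 ≤ -T + m * (2 * L + 1) by linarith)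
    rw [gr_add hm] at h3
    omega
  refine ⟨fun _ => (Icc (-(T + 2 : ℤ)) (T + 2)).filter fun x => gr m w o (x - 2) ≠ gr m w o (x + 2),
    fun _ => (Icc (-(T + 2 : ℤ)) (T + 2)).filter fun x => gr m w o' (x - 2) ≠ gr m w o' (x + 2),
    fun _ => ⟨(card_jump (stp_gr h0 hw o).mono T _ (key o)).trans (by omega),
      (card_jump (stp_gr h0 hw o').mono T _ (key o')).trans (by omega)⟩, ?_⟩
  rintro v ⟨h1, ⟨f, h2, h3⟩, g, h5, h6⟩
  simp only [mem_filter, mem_Icc]
  simp only [zd, Prod.fst_zero, Prod.snd_zero, sub_zero] at h1 h3 h6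
  by_contra k
  have eq : ∀ o x y z : ℤ, gr m w o (x - 2) = gr m w o (x + 2) → (y - x).natAbs ≤ 2 →
      (z - x).natAbs ≤ 2 → gr m w o y = gr m w o z := fun o x y z e a b => by
    have a1 := (stp_gr h0 hw o).mono (show x - 2 ≤ y by omega)
    have a2 := (stp_gr h0 hw o).mono (show y ≤ x + 2 by omega)
    have a3 := (stp_gr h0 hw o).mono (show x - 2 ≤ z by omega)
    have a4 := (stp_gr h0 hw o).mono (show z ≤ x + 2 by omega)
    omega
  refine h5 ?_
  rw [mem_pre] at h2 ⊢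
  rwa [eq o v.1 g.1 f.1 (by omega) (by omega) (by omega),
    eq o' v.2 g.2 f.2 (by omega) (by omega) (by omega)]

/-- The layer of a cone. -/
theorem cov_epi {S : Set (ℤ × ℤ)} {ν : ℂ} (hν : ‖ν‖ = 1) (h : Epi S ν (1 / 8)) (a : ℤ × ℤ) :
    Cov (fun v => Lay S (v - a)) 19 := by
  have key : ∀ P : ℤ → ℤ → Prop, (∀ t x y, P t x → P t y → y ≤ x + 9) →
      ∃ H : ℤ → Finset ℤ, ∀ t, (H t).card ≤ 19 ∧ ∀ x, P t x → x ∈ H t := fun P hP => by
    have : ∀ t, ∃ F : Finset ℤ, F.card ≤ 19 ∧ ∀ x, P t x → x ∈ F := fun t => by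
      by_cases k : ∃ x, P t x
      · obtain ⟨x, hx⟩ := k
        refine ⟨Icc (x - 9) (x + 9), by rw [Int.card_Icc]; omega, fun y hy => ?_⟩
        have := hP t x y hx hy
        have := hP t y x hy hx
        rw [mem_Icc]
        omega
      · exact ⟨∅, by simp, fun x hx => (k ⟨x, hx⟩).elim⟩
    exact ⟨fun t => (this t).choose, fun t => (this t).choose_spec⟩
  rcases row_or_col hν h with h | h
  · obtain ⟨H, hH⟩ := key (fun t x => Lay S ((x, t) - a)) fun t x y k1 k2 => by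
      have := h _ _ k1 k2 rfl
      simp only [Prod.fst_sub] at this
      omega
    exact ⟨H, fun _ => ∅, fun t => ⟨(hH t).1, by simp⟩, fun v k => Or.inl ((hH _).2 _ k)⟩
  · obtain ⟨H, hH⟩ := key (fun t x => Lay S ((t, x) - a)) fun t x y k1 k2 => by
      have := h _ _ k1 k2 rfl
      simp only [Prod.snd_sub] at this
      omega
    exact ⟨fun _ => ∅, H, fun t => ⟨by simp, (hH t).1⟩, fun v k => Or.inr ((hH _).2 _ k)⟩

/-! ### The chain -/

/-- A path is shortened: each cell is visited once. -/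
theorem short {α β : Type} {r : α → α → Prop} {R : β → β → Prop} {G : α → Prop} (f : α → β)
    (hr : ∀ x y, r x y → G x ∧ R (f x) (f y)) {u p : α} (hp : G p)
    (h : Relation.ReflTransGen r u p) : ∃ (n : ℕ) (c : ℕ → α), c 0 = u ∧ f (c n) = f p ∧
      (∀ i < n, R (f (c i)) (f (c (i + 1)))) ∧ (∀ i ≤ n, G (c i)) ∧
      ∀ i ≤ n, ∀ j ≤ n, f (c i) = f (c j) → i = j := by
  induction h using Relation.ReflTransGen.head_induction_on with
  | refl => exact ⟨0, fun _ => p, rfl, rfl, by simp, fun _ _ => hp, by omega⟩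
  | @head u v h1 _ ih =>
    obtain ⟨n, c, a1, a2, a3, a4, a5⟩ := ih
    obtain ⟨b1, b2⟩ := hr _ _ h1
    by_cases k : ∃ i ≤ n, f (c i) = f u
    · obtain ⟨i, hi, e⟩ := k
      have e' : ∀ j, f (if j = 0 then u else c (i + j)) = f (c (i + j)) := fun j => by
        split_ifs with h
        · rw [h, add_zero, e]
        · rfl
      refine ⟨n - i, fun j => if j = 0 then u else c (i + j), rfl, ?_, fun j hj => ?_,
        fun j hj => ?_, fun j hj j' hj' h => ?_⟩
      · rw [e', show i + (n - i) = n by omega, a2]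
      · rw [e', e']
        exact a3 _ (by omega)
      · beta_reduce
        split_ifs
        exacts [b1, a4 _ (by omega)]
      · rw [e', e'] at h
        have := a5 _ (by omega) _ (by omega) h
        omega
    · refine ⟨n + 1, fun j => Nat.casesOn j u c, rfl, a2, fun j hj => ?_, fun j hj => ?_,
        fun j hj j' hj' h => ?_⟩
      · rcases j with _ | j
        exacts [by simpa [a1] using b2, a3 j (by omega)]
      · rcases j with _ | j
        exacts [b1, a4 j (by omega)]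
      · rcases j with _ | j <;> rcases j' with _ | j'
        · rfl
        · exact (k ⟨j', by omega, h.symm⟩).elim
        · exact (k ⟨j, by omega, h⟩).elim
        · rw [a5 j (by omega) j' (by omega) h]

/-- A chain with a bounded number of steps. -/
theorem chain_of_rch {G : ℤ × ℤ → Prop} {T q L : ℕ} (hG : ∀ v, G v → zd v 0 ≤ T) (h8 : 8 ≤ q)
    (hT : T ≤ L * q) {p p' : ℤ × ℤ} (hp : G p') (h : Rch G p p') :
    ∃ n ≤ (8 * L + 8) ^ 2, ∃ c : ℕ → ℤ × ℤ, c 0 = p ∧ c n = p' ∧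
      (∀ i < n, zd (c (i + 1)) (c i) ≤ q) ∧ ∀ i ≤ n, G (c i) := by
  obtain ⟨s, hs1, hs2⟩ : ∃ s : ℕ, 2 * s ≤ q ∧ q ≤ 2 * s + 1 := ⟨q / 2, by omega, by omega⟩
  have hs : (0 : ℤ) < s := by omega
  choose ix ix1 ix2 using exists_cell hs (-(T : ℤ))
  have cancel : ∀ a b : ℤ, (s : ℤ) * a < s * b → a < b := fun a b k => lt_of_mul_lt_mul_left k hs.le
  have near : ∀ x y : ℤ, (x - y).natAbs ≤ 1 → (ix x - ix y).natAbs ≤ 1 := fun x y k => by
    have := ix1 x
    have := ix2 x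
    have := ix1 y
    have := ix2 y
    have := cancel (ix x) (ix y + 2) (by rw [mul_add]; omega)
    have := cancel (ix y) (ix x + 2) (by rw [mul_add]; omega)
    omega
  have near' : ∀ x y : ℤ, (ix x - ix y).natAbs ≤ 1 → (x - y).natAbs ≤ q := fun x y k => by
    have := ix1 x
    have := ix2 x
    have := ix1 y
    have := ix2 y
    have := mul_le_mul_of_nonneg_left (show ix x ≤ ix y + 1 by omega) hs.le
    have := mul_le_mul_of_nonneg_left (show ix y ≤ ix x + 1 by omega) hs.le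
    simp only [mul_add] at *
    omega
  have rng : ∀ x : ℤ, x.natAbs ≤ T → ix x ∈ Icc (0 : ℤ) (6 * L) := fun x k => by
    have := ix1 x
    have := ix2 x
    have h1 : (T : ℤ) ≤ L * q := by exact_mod_cast hT
    have h2 : (L : ℤ) * q ≤ L * (3 * s) := mul_le_mul_of_nonneg_left (by omega) (by omega)
    have := cancel (-1) (ix x) (by omega)
    have := cancel (ix x) (6 * L + 1) (by
      have : x ≤ T := by omega
      linarith)
    rw [mem_Icc]
    omega
  obtain ⟨n, c, a1, a2, a3, a4, a5⟩ := short (G := G) (R := fun a b => zd b a ≤ 1)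
    (fun v : ℤ × ℤ => (ix v.1, ix v.2)) (fun x y k => ⟨k.1, by
      have := near y.1 x.1 (by rcases k.2.2 with rfl | rfl | rfl | rfl <;> simp)
      have := near y.2 x.2 (by rcases k.2.2 with rfl | rfl | rfl | rfl <;> simp)
      simp only [zd]
      omega⟩) hp h
  have card := card_le_card_of_injOn (s := range (n + 1))
    (t := Icc (0 : ℤ) (6 * L) ×ˢ Icc (0 : ℤ) (6 * L)) (fun i => (ix (c i).1, ix (c i).2))
    (fun i hi => by
      have := hG _ (a4 i (by simpa [Nat.lt_succ_iff] using hi))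
      simp only [zd, Prod.fst_zero, Prod.snd_zero, sub_zero] at this
      exact mem_coe.2 (mem_product.2 ⟨rng _ (by omega), rng _ (by omega)⟩))
    (fun i hi j hj e => a5 i (by simpa [Nat.lt_succ_iff] using hi) j
      (by simpa [Nat.lt_succ_iff] using hj) e)
  rw [card_range, card_product, Int.card_Icc, show ((6 : ℤ) * L + 1 - 0).toNat = 6 * L + 1 by
    omega] at card
  have far : ∀ x y : ℤ × ℤ, zd (ix x.1, ix x.2) (ix y.1, ix y.2) ≤ 1 → zd x y ≤ q := fun x y k => by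
    simp only [zd] at k ⊢
    have := near' x.1 y.1 (by omega)
    have := near' x.2 y.2 (by omega)
    omega
  refine ⟨n + 1, card.trans (by nlinarith), fun i => if i ≤ n then c i else p', by simp [a1],
    by simp, fun i hi => ?_, fun i _ => ?_⟩
  · beta_reduce
    rw [if_pos (show i ≤ n by omega)]
    split_ifs with k
    · exact far _ _ (a3 i (by omega))
    · obtain rfl : i = n := by omega
      exact far _ _ (by rw [a2]; simp [zd])
  · beta_reduce
    split_ifs with k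
    exacts [a4 i k, hp]

/-! ### The torus -/

variable {M : ℕ}

theorem prj_inj {u v : ℤ × ℤ} (h : prj M u = prj M v) (hd : zd u v < M) : u = v := by
  have one : ∀ a b : ℤ, (a : ZMod M) = b → (a - b).natAbs < M → a = b := by
    intro a b e hab
    have := Int.eq_zero_of_dvd_of_natAbs_lt_natAbs
      ((ZMod.intCast_eq_intCast_iff_dvd_sub b a M).1 e.symm) (by simpa using hab)
    omega
  simp only [zd] at hd
  exact Prod.ext (one _ _ (congrArg Prod.fst h) (by omega)) (one _ _ (congrArg Prod.snd h) (by omega))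

theorem prj_mem {X : Finset (ℤ × ℤ)} {T R : ℕ} (hX : ∀ v ∈ X, zd v 0 ≤ T) (hM : T + R < M)
    {v : ℤ × ℤ} (hv : zd v 0 ≤ R) : prj M v ∈ X.image (prj M) ↔ v ∈ X := by
  refine ⟨fun h => ?_, mem_image_of_mem _⟩
  obtain ⟨u, h1, h2⟩ := mem_image.1 h
  have := hX u h1
  have := zd_tri u 0 v
  have := zd_comm 0 v
  exact prj_inj h2 (by omega) ▸ h1

variable [NeZero M]

theorem tdist_prj_zero (v : ℤ × ℤ) : tdist (prj M v) 0 ≤ zd v 0 := by
  simpa using tdist_le_zd (M := M) 0 v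

omit [NeZero M] in
theorem zd_lft_zero (f : Tor M) : zd (lft f) 0 = tdist f 0 := by simpa using zd_lft f 0

theorem connB_of_allC {X : Finset (ℤ × ℤ)} {T : ℕ} (hX : ∀ v ∈ X, zd v 0 ≤ T)
    (hM : 2 * T + 1 < M) (h : AllC (· ∉ X)) : ConnB (X.image (prj M)) 0 (T + 1) (T + 1) := by
  obtain ⟨g, g1, g2, g3⟩ : ∃ g : ℤ → ℤ, (∀ x, (g x).natAbs ≤ T + 1) ∧
      (∀ x, x.natAbs ≤ T + 1 ∨ (g x).natAbs ≤ T → g x = x) ∧
      ∀ x, g (x + 1) = g x ∨ g (x + 1) = g x + 1 :=
    ⟨fun x => max (-(T + 1 : ℤ)) (min x (T + 1)), fun x => by beta_reduce; omega,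
      fun x => by beta_reduce; omega, fun x => by beta_reduce; omega⟩
  obtain ⟨cl, hcl⟩ : ∃ cl : ℤ × ℤ → ℤ × ℤ, ∀ v, cl v = (g v.1, g v.2) := ⟨_, fun _ => rfl⟩
  have c1 : ∀ v, zd (cl v) 0 ≤ T + 1 := fun v => by
    have := g1 v.1
    have := g1 v.2
    simp only [hcl, zd, Prod.fst_zero, Prod.snd_zero]
    omega
  have c2 : ∀ v, zd v 0 ≤ T + 1 ∨ zd (cl v) 0 ≤ T → cl v = v := fun v k => by
    simp only [hcl, zd, Prod.fst_zero, Prod.snd_zero] at k ⊢
    rw [g2 v.1 (by omega), g2 v.2 (by omega)]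
  have c3 : ∀ v, v ∉ X → prj M (cl v) ∉ X.image (prj M) := fun v k k' => by
    have k1 := (prj_mem hX (by omega) (c1 v)).1 k'
    have k2 := hX _ k1
    exact k (c2 v (Or.inr k2) ▸ k1)
  have c4 : ∀ v, tdist (prj M (cl v)) 0 ≤ T + 1 := fun v => (tdist_prj_zero _).trans (c1 v)
  intro f f' h1 h2 h3 h4
  have e : ∀ g : Tor M, tdist g 0 ≤ T + 1 → prj M (cl (lft g)) = g := fun g k => by
    rw [c2 _ (Or.inl (by rwa [zd_lft_zero])), prj_lft]
  have o : ∀ g : Tor M, g ∉ X.image (prj M) → lft g ∉ X := fun g k k' =>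
    k (prj_lft g ▸ mem_image_of_mem _ k')
  rw [← e f h1, ← e f' h2]
  refine rch_ind (P := fun x => Relation.ReflTransGen _ (prj M (cl (lft f))) (prj M (cl x)))
    (h _ _ (o f h3) (o f' h4)) Relation.ReflTransGen.refl fun x a _ k1 k2 ih => ?_
  have : cl (x + st4 a) = cl x ∨ cl (x + st4 a) = cl x + (1, 0) ∨ cl (x + st4 a) = cl x + (0, 1) ∨
      cl x = cl (x + st4 a) + (1, 0) ∨ cl x = cl (x + st4 a) + (0, 1) := by
    have := g3 x.1
    have := g3 x.2
    have := g3 (x.1 + -1)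
    have := g3 (x.2 + -1)
    fin_cases a <;> simp [hcl, st4] at * <;> omega
  rcases this with k | k
  · rwa [k]
  · refine ih.tail ⟨c4 _, c4 _, c3 _ k1, c3 _ k2, ?_⟩
    rcases k with k | k | k | k
    · exact ⟨0, Or.inl (by rw [k, G.prj_add, G.uv_zero])⟩
    · exact ⟨1, Or.inl (by rw [k, G.prj_add, G.uv_one])⟩
    · exact ⟨0, Or.inr (by rw [k, G.prj_add, G.uv_zero])⟩
    · exact ⟨1, Or.inr (by rw [k, G.prj_add, G.uv_one])⟩

theorem trB_of_cov {X : Finset (ℤ × ℤ)} {T N : ℕ} (hX : ∀ v ∈ X, zd v 0 ≤ T)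
    (hM : 2 * T + 4 < M) (h : Cov (Lay X) N) (ρ : ℕ) : TrB (X.image (prj M)) 0 ρ N := by
  obtain ⟨H, V, h1, h2⟩ := h
  refine ⟨univ.filter fun x => (lft x).1 ∈ H (lft x).2, univ.filter fun x => (lft x).2 ∈ V (lft x).1,
    fun x _ hx => ?_, fun t => ?_, fun t => ?_⟩
  · obtain ⟨⟨f, a1, a2⟩, g, a3, a4⟩ := hx
    obtain ⟨u, hu, rfl⟩ := mem_image.1 a1
    obtain ⟨w, b1, b2, b3⟩ := exists_rep 0 x (prj M u)
    obtain ⟨w', c1, c2, -⟩ := exists_rep 0 x g
    rw [zero_add] at b1 c1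
    rw [sub_zero] at b2 c2
    have d1 := tdist_triangle x (prj M u) 0
    have d2 := tdist_comm x (prj M u)
    have d3 := (tdist_prj_zero (M := M) u).trans (hX u hu)
    simp only [mem_filter, mem_univ, true_and]
    exact h2 _ ⟨⟨w, (prj_mem hX (R := T + 4) (by omega) (by omega)).1 (b1 ▸ a1), b2 ▸ a2⟩,
      w', fun k => a3 (c1 ▸ mem_image_of_mem _ k), c2 ▸ a4⟩
  · refine (card_le_card_of_injOn (t := H t.valMinAbs) (fun x => (lft x).1) (fun x hx => ?_)
      fun x hx y hy e => ?_).trans (h1 _).1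
    · simp only [coe_filter, mem_filter, mem_univ, true_and, Set.mem_ofPred_eq] at hx
      exact hx.2 ▸ hx.1
    · simp only [coe_filter, Set.mem_ofPred_eq] at hx hy
      exact Prod.ext (ZMod.valMinAbs_inj.1 e) (hx.2.trans hy.2.symm)
  · refine (card_le_card_of_injOn (t := V t.valMinAbs) (fun x => (lft x).2) (fun x hx => ?_)
      fun x hx y hy e => ?_).trans (h1 _).2
    · simp only [coe_filter, mem_filter, mem_univ, true_and, Set.mem_ofPred_eq] at hx
      exact hx.2 ▸ hx.1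
    · simp only [coe_filter, Set.mem_ofPred_eq] at hx hy
      exact Prod.ext (hx.2.trans hy.2.symm) (ZMod.valMinAbs_inj.1 e)

/-- A corridor from planar data. -/
theorem corr_of {X : Finset (ℤ × ℤ)} {T q L N₁ N : ℕ} {p p' : ℤ × ℤ} (hX : ∀ v ∈ X, zd v 0 ≤ T)
    (h1 : AllC (· ∉ X)) (h2 : Cov (Lay X) N₁) (h3 : Rch (Deep X (2 * q)) p p')
    (h4 : Deep X (2 * q) p') (h8 : 8 ≤ q) (hT : T ≤ L * q) (hM : 64 * T ≤ M)
    (hN : N₁ + (8 * L + 8) ^ 2 ≤ N) : Corr (X.image (prj M)) T q N (prj M p) (prj M p') := by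
  have hq : 2 * q ≤ T := by
    have := hX _ (h4 (p'.1 + 2 * q, p'.2) (by simp only [zd]; omega))
    have := hX _ (h4 (p'.1 - 2 * q, p'.2) (by simp only [zd]; omega))
    simp only [zd, Prod.fst_zero, Prod.snd_zero] at *
    omega
  refine ⟨fun f hf => ?_, connB_of_allC hX (by omega) h1,
    trB_of_cov hX (by omega) (h2.mono (fun _ k => k) (by omega)) M, ?_⟩
  · obtain ⟨u, hu, rfl⟩ := mem_image.1 hf
    exact (tdist_prj_zero u).trans (hX u hu)
  · obtain ⟨n, hn, c, a1, a2, a3, a4⟩ := chain_of_rch (G := Deep X (2 * q))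
      (fun v k => hX v (k v (by simp [zd]))) h8 hT h4 h3
    refine ⟨n, by omega, fun i => prj M (c i), congrArg _ a1, congrArg _ a2,
      fun i hi => (tdist_prj_le _ _).trans (a3 i hi), fun i hi f hf => ?_⟩
    rw [← G.add_prj_lft f (prj M (c i)), ← G.prj_add]
    refine mem_image_of_mem _ (a4 i hi _ ?_)
    rw [← zd_lft] at hf
    simpa [zd] using hf

end Vale.Agent.P144Z.ICg
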