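import Vale.Agent.P144D.Geo.A

/-!
Even sets of edges of the plane lattice: parities and the handshake argument.
-/

namespace Vale.Agent.P144Z.ICyc

open Finset

/-- The edges of the plane lattice: a base point and a direction. -/
abbrev Ed : Type := (ℤ × ℤ) × Fin 2

/-- The sign of a proposition. -/
def sp (p : Prop) [Decidable p] : ℝ := if p then -1 else 1

theorem sp_sq (p : Prop) [Decidable p] : sp p * sp p = 1 := by
  unfold sp
  split_ifs <;> norm_num

theorem sp_pos {p : Prop} [Decidable p] (h : p) : sp p = -1 := if_pos h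

theorem sp_neg {p : Prop} [Decidable p] (h : ¬ p) : sp p = 1 := if_neg h

theorem sp_congr {p q : Prop} [Decidable p] [Decidable q] (h : p ↔ q) : sp p = sp q := by
  unfold sp
  exact if_congr h rfl rfl

/-- The parity of the number of edges of `P` at `v`. -/
def dgz (P : Finset Ed) (v : ℤ × ℤ) : ℝ :=
  sp ((v, 0) ∈ P) * sp ((v, 1) ∈ P) * (sp ((v - (1, 0), 0) ∈ P) * sp ((v - (0, 1), 1) ∈ P))

theorem sp_insert {P : Finset Ed} {e : Ed} (h : e ∉ P) (e' : Ed) :
    sp (e' ∈ insert e P) = sp (e' ∈ P) * sp (e = e') := by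
  by_cases h1 : e = e'
  · subst h1
    rw [sp_pos (mem_insert_self _ _), sp_neg h, sp_pos rfl, one_mul]
  · rw [sp_neg h1, mul_one]
    exact sp_congr (by simp [Ne.symm h1])

theorem sp_sdiff {E P : Finset Ed} (h : P ⊆ E) (e : Ed) :
    sp (e ∈ E) = sp (e ∈ P) * sp (e ∈ E \ P) := by
  by_cases h1 : e ∈ P
  · rw [sp_pos h1, sp_pos (h h1), sp_neg (by simp [h1]), mul_one]
  · rw [sp_neg h1, one_mul]
    exact sp_congr (by simp [h1])

theorem dgz_empty (v : ℤ × ℤ) : dgz ∅ v = 1 := by simp [dgz, sp]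

theorem dgz_insert {P : Finset Ed} {e : Ed} (h : e ∉ P) (v : ℤ × ℤ) :
    dgz (insert e P) v = dgz P v * (sp (e.1 = v) * sp (e.1 + uz e.2 = v)) := by
  obtain ⟨w, i⟩ := e
  simp only [dgz, sp_insert h]
  have key : sp ((w, i) = (v, (0 : Fin 2))) * sp ((w, i) = (v, (1 : Fin 2))) *
      (sp ((w, i) = (v - (1, 0), (0 : Fin 2))) * sp ((w, i) = (v - (0, 1), (1 : Fin 2)))) =
      sp (w = v) * sp (w + uz i = v) := by
    fin_cases i
    · rw [sp_neg (p := _ = (v, (1 : Fin 2))) (by simp),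
        sp_neg (p := _ = (v - (0, 1), (1 : Fin 2))) (by simp), mul_one, mul_one]
      congr 1
      · exact sp_congr (by simp)
      · exact sp_congr (by simp [uz, eq_sub_iff_add_eq])
    · rw [sp_neg (p := _ = (v, (0 : Fin 2))) (by simp),
        sp_neg (p := _ = (v - (1, 0), (0 : Fin 2))) (by simp), one_mul, one_mul]
      congr 1
      · exact sp_congr (by simp)
      · exact sp_congr (by simp [uz, eq_sub_iff_add_eq])
  rw [← key]
  ring

theorem dgz_sdiff {E P : Finset Ed} (h : P ⊆ E) (v : ℤ × ℤ) :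
    dgz E v = dgz P v * dgz (E \ P) v := by
  simp only [dgz, sp_sdiff h]
  ring

theorem prod_sp_eq (S : Finset (ℤ × ℤ)) (w : ℤ × ℤ) : ∏ v ∈ S, sp (w = v) = sp (w ∈ S) := by
  by_cases h : w ∈ S
  · rw [prod_eq_single w (fun v _ hv => sp_neg (Ne.symm hv)) (fun h' => absurd h h'), sp_pos rfl,
      sp_pos h]
  · rw [sp_neg h]
    exact prod_eq_one fun v hv => sp_neg fun e => h (e ▸ hv)

theorem prod_dgz (S : Finset (ℤ × ℤ)) (E : Finset Ed) :
    ∏ v ∈ S, dgz E v = ∏ e ∈ E, sp (e.1 ∈ S) * sp (e.1 + uz e.2 ∈ S) := by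
  induction E using Finset.induction_on with
  | empty => simp [dgz_empty]
  | insert e E he ih =>
    simp only [dgz_insert he, prod_mul_distrib, prod_sp_eq] at ih ⊢
    rw [prod_insert he, prod_insert he, ih]
    ring

/-- The edge from `k` in the direction `a`. -/
def edg (k : ℤ × ℤ) (a : Fin 4) : Ed := ![(k, 0), (k, 1), (k - (1, 0), 0), (k - (0, 1), 1)] a

theorem edg_ends (k : ℤ × ℤ) (a : Fin 4) :
    ((edg k a).1 = k ∧ uz (edg k a).2 = st4 a) ∨
      ((edg k a).1 = k + st4 a ∧ uz (edg k a).2 = -st4 a) := by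
  fin_cases a <;> simp [edg, uz, st4, sub_eq_add_neg]

theorem exists_fwd (e : Ed) : ∃ a, e.1 + uz e.2 = e.1 + st4 a ∧ edg e.1 a = e := by
  obtain ⟨w, i⟩ := e
  fin_cases i
  · exact ⟨0, by simp [uz, st4], by simp [edg]⟩
  · exact ⟨1, by simp [uz, st4], by simp [edg]⟩

theorem exists_bwd (e : Ed) : ∃ a, e.1 = e.1 + uz e.2 + st4 a ∧ edg (e.1 + uz e.2) a = e := by
  obtain ⟨w, i⟩ := e
  fin_cases i
  · exact ⟨2, by simp [uz, st4, Prod.ext_iff], by simp [edg, uz]⟩
  · exact ⟨3, by simp [uz, st4, Prod.ext_iff], by simp [edg, uz]⟩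

/-- The ends of an edge of an even set are connected through the other edges. -/
theorem handshake {E : Finset Ed} (hE : ∀ v, dgz E v = 1) {e : Ed} (he : e ∈ E) :
    Relation.ReflTransGen (fun u v => ∃ a, v = u + st4 a ∧ edg u a ∈ E.erase e) e.1
      (e.1 + uz e.2) := by
  classical
  by_contra hn
  set R := Relation.ReflTransGen fun u v => ∃ a, v = u + st4 a ∧ edg u a ∈ E.erase e with hR
  set S := (E.image (·.1) ∪ E.image fun e => e.1 + uz e.2).filter (R e.1) with hS
  have h1 : ∀ e' ∈ E, (e'.1 ∈ S ↔ R e.1 e'.1) := fun e' h => by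
    rw [hS, mem_filter]
    exact and_iff_right (mem_union_left _ (mem_image_of_mem _ h))
  have h2 : ∀ e' ∈ E, (e'.1 + uz e'.2 ∈ S ↔ R e.1 (e'.1 + uz e'.2)) := fun e' h => by
    rw [hS, mem_filter]
    exact and_iff_right (mem_union_right _ (mem_image_of_mem (fun e : Ed => e.1 + uz e.2) h))
  have h3 := prod_dgz S E
  rw [prod_eq_one fun v _ => hE v, prod_eq_single e ?_ (fun h => absurd he h),
    sp_pos ((h1 e he).2 Relation.ReflTransGen.refl), sp_neg (mt (h2 e he).1 hn)] at h3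
  · norm_num at h3
  · intro e' h hne
    have hm : e' ∈ E.erase e := mem_erase.2 ⟨hne, h⟩
    have : e'.1 ∈ S ↔ e'.1 + uz e'.2 ∈ S := by
      rw [h1 e' h, h2 e' h]
      constructor
      · intro h4
        obtain ⟨a, ha, hb⟩ := exists_fwd e'
        exact h4.tail ⟨a, ha, hb.symm ▸ hm⟩
      · intro h4
        obtain ⟨a, ha, hb⟩ := exists_bwd e'
        exact h4.tail ⟨a, ha, hb.symm ▸ hm⟩
    rw [sp_congr this, sp_sq]

/-- A nonempty even set has a vertical edge. -/
theorem exists_vert {E : Finset Ed} (hE : ∀ v, dgz E v = 1) (hn : E.Nonempty) :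
    ∃ a, (a, (1 : Fin 2)) ∈ E := by
  by_contra h
  push Not at h
  obtain ⟨⟨w, i⟩, he, hmax⟩ := exists_max_image E (fun e => e.1.1) hn
  have hi : i = 0 := by
    fin_cases i
    · rfl
    · exact absurd he (h w)
  subst hi
  have h1 := hE (w + (1, 0))
  have h2 : (w + (1, 0), (0 : Fin 2)) ∉ E := fun h3 => by
    have := hmax _ h3
    simp at this
  rw [dgz, sp_neg h2, sp_neg (h _), sp_neg (h _), add_sub_cancel_right, sp_pos he] at h1
  norm_num at h1

end Vale.Agent.P144Z.ICyc
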