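import Vale.Agent.P144D.I.Cg.CycA
import Vale.Agent.P144Z.I1.Even

/-!
From a coarse lattice to the fine one, and from the plane to the torus.
-/

namespace Vale.Agent.P144Z.ICyc

open Finset

theorem dv {m x k r : ℤ} (h : x = m * k + r) (h0 : 0 ≤ r) (h1 : r < m) :
    x / m = k ∧ x % m = r :=
  (Int.ediv_emod_unique (h0.trans_lt h1)).2 ⟨by rw [h, add_comm], h0, h1⟩

theorem dv' {m : ℤ} (hm : 0 < m) (x : ℤ) :
    x = m * (x / m) + x % m ∧ 0 ≤ x % m ∧ x % m < m :=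
  ⟨(Int.mul_ediv_add_emod x m).symm, Int.emod_nonneg _ hm.ne', Int.emod_lt_of_pos _ hm⟩

theorem div_pred {m : ℤ} (hm : 0 < m) (x : ℤ) :
    (x - 1) / m = if x % m = 0 then x / m - 1 else x / m := by
  obtain ⟨h1, h2, h3⟩ := dv' hm x
  split_ifs with h
  · exact (dv (r := m - 1) (by rw [mul_sub]; omega) (by omega) (by omega)).1
  · exact (dv (r := x % m - 1) (by omega) (by omega) (by omega)).1

/-- The coarse cell of a point. -/
def cel (m : ℤ) (v : ℤ × ℤ) : ℤ × ℤ := (v.1 / m, v.2 / m)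

theorem cel0 {m : ℤ} (hm : 0 < m) (v : ℤ × ℤ) :
    cel m (v - (1, 0)) = if v.1 % m = 0 then cel m v - (1, 0) else cel m v := by
  simp only [cel, Prod.fst_sub, Prod.snd_sub, sub_zero, div_pred hm]
  split_ifs <;> simp

theorem cel1 {m : ℤ} (hm : 0 < m) (v : ℤ × ℤ) :
    cel m (v - (0, 1)) = if v.2 % m = 0 then cel m v - (0, 1) else cel m v := by
  simp only [cel, Prod.fst_sub, Prod.snd_sub, sub_zero, div_pred hm]
  split_ifs <;> simp

/-- The fine edges along the coarse edges of `P`. -/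
def lf (m : ℤ) (P : Finset Ed) (i : Fin 2) (v : ℤ × ℤ) : Bool :=
  decide ((if i = 0 then v.2 else v.1) % m = 0 ∧ (cel m v, i) ∈ P)

theorem sgn_lf (m : ℤ) (P : Finset Ed) (i : Fin 2) (v : ℤ × ℤ) : sgn (lf m P i v) =
    if (if i = 0 then v.2 else v.1) % m = 0 then sp ((cel m v, i) ∈ P) else 1 := by
  unfold lf sgn sp
  by_cases h1 : (if i = 0 then v.2 else v.1) % m = 0 <;> by_cases h2 : (cel m v, i) ∈ P <;>
    simp only [h1, h2] <;> simp

theorem lf_even {m : ℤ} (hm : 0 < m) {P : Finset Ed} (hP : ∀ v, dgz P v = 1) (v : ℤ × ℤ) :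
    sgn (lf m P 0 v) * sgn (lf m P 1 v) *
      (sgn (lf m P 0 (v - uz 0)) * sgn (lf m P 1 (v - uz 1))) = 1 := by
  have e0 : uz 0 = (1, 0) := rfl
  have e1 : uz 1 = (0, 1) := rfl
  have e2 : ¬ (1 : Fin 2) = 0 := by decide
  simp only [sgn_lf, e0, e1, e2, if_true, if_false, cel0 hm, cel1 hm, Prod.fst_sub, Prod.snd_sub,
    sub_zero]
  by_cases h1 : v.1 % m = 0 <;> by_cases h2 : v.2 % m = 0 <;> simp only [h1, h2, if_true, if_false]
  · exact hP _
  · rw [one_mul, sp_sq]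
  · rw [mul_one, sp_sq]
  · norm_num

theorem lf_prod {m : ℤ} {E : Finset Ed} {n : ℕ} {P : Fin n → Finset Ed}
    (h : ∀ e, sp (e ∈ E) = ∏ j, sp (e ∈ P j)) (i : Fin 2) (v : ℤ × ℤ) :
    sgn (lf m E i v) = ∏ j, sgn (lf m (P j) i v) := by
  simp only [sgn_lf]
  split_ifs
  any_goals exact h _
  all_goals simp

theorem lf_dom {m : ℤ} (hm : 0 < m) {E : Finset Ed} {u : ℤ × ℤ → Bool}
    (h : ∀ a i, (a, i) ∈ E ↔ u a ≠ u (a - uz (if i = 0 then 1 else 0))) (i : Fin 2) (v : ℤ × ℤ) :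
    xor (u (cel m v)) (u (cel m (v - uz (if i = 0 then 1 else 0)))) = lf m E i v := by
  have e0 : uz 0 = (1, 0) := rfl
  have e1 : uz 1 = (0, 1) := rfl
  have e2 : ¬ (1 : Fin 2) = 0 := by decide
  have key : ∀ a b : Bool, xor a b = decide (True ∧ a ≠ b) := by decide
  unfold lf
  simp only [h]
  rcases (by fin_cases i <;> simp : i = 0 ∨ i = 1) with rfl | rfl
  · simp only [if_true, e1, cel1 hm]
    by_cases h2 : v.2 % m = 0 <;> simp only [h2, if_true, if_false]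
    · exact key _ _
    · simp
  · simp only [e2, if_false, e0, cel0 hm]
    by_cases h2 : v.1 % m = 0 <;> simp only [h2, if_true, if_false]
    · exact key _ _
    · simp

theorem dom_even {E : Finset Ed} {u : ℤ × ℤ → Bool}
    (h : ∀ a i, (a, i) ∈ E ↔ u a ≠ u (a - uz (if i = 0 then 1 else 0))) (v : ℤ × ℤ) :
    dgz E v = 1 := by
  have e0 : uz 0 = (1, 0) := rfl
  have e1 : uz 1 = (0, 1) := rfl
  have e2 : ¬ (1 : Fin 2) = 0 := by decide
  unfold dgz
  rw [sp_congr (h _ _), sp_congr (h _ _), sp_congr (h _ _), sp_congr (h _ _)]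
  simp only [if_true, e2, if_false, e0, e1]
  rw [sub_right_comm v (0, 1) (1, 0)]
  generalize u v = a
  generalize u (v - (0, 1)) = b
  generalize u (v - (1, 0)) = c
  generalize u (v - (1, 0) - (0, 1)) = d
  cases a <;> cases b <;> cases c <;> cases d <;> simp [sp]

/-- A coarse version of a function that is locally constant outside `Λ`. -/
theorem exists_coarse (Λ : Finset (ℤ × ℤ)) {m : ℕ} (hm : 0 < m) (t : ℤ × ℤ → Bool)
    (h : ∀ f f', f ∉ Λ → f' ∉ Λ → zd f f' ≤ 6 * m → t f = t f') :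
    ∃ u : ℤ × ℤ → Bool, (∀ v, v ∉ Λ → u (cel m v) = t v) ∧ ∀ a i, u a ≠ u (a - uz i) →
      ∀ v, zd v (m * a.1, m * a.2) ≤ 2 * m → v ∈ Λ := by
  classical
  set u : ℤ × ℤ → Bool := fun a =>
    decide (∃ v, v ∉ Λ ∧ zd v (m * a.1, m * a.2) ≤ 3 * m ∧ t v = true) with hu
  have key : ∀ a v, v ∉ Λ → zd v (m * a.1, m * a.2) ≤ 3 * m → u a = t v := by
    intro a v hv hd
    rw [Bool.eq_iff_iff, hu, decide_eq_true_iff]
    refine ⟨?_, fun h1 => ⟨v, hv, hd, h1⟩⟩
    rintro ⟨w, hw, hd', h1⟩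
    rw [h v w hv hw, h1]
    unfold zd at *
    simp only at *
    omega
  refine ⟨u, fun v hv => key _ v hv ?_, fun a i hne v hd => ?_⟩
  · have h1 := dv' (Int.natCast_pos.2 hm) v.1
    have h2 := dv' (Int.natCast_pos.2 hm) v.2
    simp only [zd, cel]
    omega
  · by_contra hv
    refine hne ((key a v hv (by omega)).trans (key _ v hv ?_).symm)
    unfold zd at *
    fin_cases i <;> simp [uz, mul_sub] at * <;> omega

variable {M : ℕ} [NeZero M]

omit [NeZero M] in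
theorem prj_uz (i : Fin 2) : prj M (uz i) = uv M i := by
  fin_cases i <;> simp [prj, uz, uv]

theorem lft_box {v : ℤ × ℤ} {T : ℕ} (h : zd v 0 ≤ T) (hM : 2 * T < M) : lft (prj M v) = v := by
  unfold zd at h
  simp only [Prod.fst_zero, Prod.snd_zero, sub_zero] at h
  refine lft_prj ?_ ?_
  · cases abs_cases v.1 <;> omega
  · cases abs_cases v.2 <;> omega

theorem zd_uz (v : ℤ × ℤ) (i : Fin 2) : zd (v + uz i) 0 ≤ zd v 0 + 1 := by
  unfold zd
  fin_cases i <;> simp [uz] <;> omega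

theorem lft_sub {F : ℤ × ℤ → Bool} {T : ℕ} (hF : ∀ v, F v = true → zd v 0 ≤ T)
    (hM : 2 * (T + 1) < M) (x : Tor M) (i : Fin 2) :
    F (lft (x - uv M i)) = F (lft x - uz i) := by
  rw [Bool.eq_iff_iff]
  constructor
  · intro h
    have h1 := lft_box (M := M) ((zd_uz _ i).trans (Nat.succ_le_succ (hF _ h))) hM
    rw [G.prj_add, prj_lft, prj_uz, sub_add_cancel] at h1
    rwa [h1, add_sub_cancel_right]
  · intro h
    have h1 := lft_box (M := M) (hF _ h) (by omega)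
    rw [G.prj_sub, prj_lft, prj_uz] at h1
    rwa [h1]

omit [NeZero M] in
theorem prj_inj' {u v : ℤ × ℤ} (h : prj M u = prj M v) (hd : zd u v < M) : u = v := by
  simp only [prj, Prod.mk.injEq, ZMod.intCast_eq_intCast_iff_dvd_sub] at h
  unfold zd at hd
  have h1 := Int.eq_zero_of_abs_lt_dvd h.1 (by cases abs_cases (v.1 - u.1) <;> omega)
  have h2 := Int.eq_zero_of_abs_lt_dvd h.2 (by cases abs_cases (v.2 - u.2) <;> omega)
  exact Prod.ext (by omega) (by omega)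

omit [NeZero M] in
theorem mem_img {X : Finset (ℤ × ℤ)} {T : ℕ} (hX : ∀ v ∈ X, zd v 0 ≤ T) {v : ℤ × ℤ}
    (hv : zd v 0 + T < M) : prj M v ∈ X.image (prj M) ↔ v ∈ X := by
  refine ⟨fun h => ?_, mem_image_of_mem _⟩
  obtain ⟨w, hw, e⟩ := mem_image.1 h
  have h1 := hX w hw
  rwa [← prj_inj' e (by unfold zd at *; simp only [Prod.fst_zero, Prod.snd_zero] at *; omega)]

theorem zd_lft_le (x : Tor M) : 2 * zd (lft x) 0 ≤ M := by
  have h := tdist_le x 0
  simp only [tdist, sub_zero] at h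
  simpa [zd] using h

end Vale.Agent.P144Z.ICyc
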