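import Vale.Agent.P144D.I.Cg.CycA
import Vale.Agent.P144D.I.Cg.Base

/-!
Even sets of edges are sums of cycles; each cycle is a simple path closed by a vertical edge.
-/

namespace Vale.Agent.P144Z.ICyc

open Finset ICg

/-- One step along the doubled set `S`. -/
def St (S : Set (ℤ × ℤ)) (k k' : ℤ × ℤ) : Prop :=
  ∃ d, k' = k + st4 d ∧ 2 • k ∈ S ∧ 2 • k + st4 d ∈ S ∧ 2 • k' ∈ S

/-- A cycle `P` in `E` through the vertical edge at `a`; `S` is the rest of it on the doubled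
lattice. -/
structure Cy (E P : Finset Ed) (a : ℤ × ℤ) (S : Set (ℤ × ℤ)) : Prop where
  sub : P ⊆ E
  mem : (a, 1) ∈ P
  even : ∀ v, dgz P v = 1
  allC : AllC (· ∉ S)
  bot : 2 • a ∈ S
  top : 2 • (a + uz 1) ∈ S
  cov : ∀ e ∈ P, 2 • e.1 ∈ S ∧ (e = (a, 1) ∨ 2 • e.1 + uz e.2 ∈ S)
  gap : 2 • a + uz 1 ∉ S
  odd : ∀ x ∈ S, x.1 % 2 = 0 ∨ x.2 % 2 = 0
  near : ∀ x ∈ S, ∃ e ∈ E, 2 * e.1.1 ≤ x.1 ∧ x.1 ≤ 2 * e.1.1 + 2 ∧ 2 * e.1.2 ≤ x.2 ∧
    x.2 ≤ 2 * e.1.2 + 2
  path : Relation.ReflTransGen (St S) a (a + uz 1)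

theorem Cy.mono {E E' P : Finset Ed} {a : ℤ × ℤ} {S : Set (ℤ × ℤ)} (h : Cy E P a S)
    (hE : E ⊆ E') : Cy E' P a S :=
  { h with
    sub := h.sub.trans hE
    near := fun x hx => (h.near x hx).imp fun _ k => ⟨hE k.1, k.2⟩ }

theorem edg_mid (k : ℤ × ℤ) (d : Fin 4) :
    2 • (edg k d).1 + uz (edg k d).2 = 2 • k + st4 d := by
  rcases edg_ends k d with ⟨h1, h2⟩ | ⟨h1, h2⟩
  · rw [h1, h2]
  · rw [h1, h2, two_smul, two_smul]
    abel

theorem mid_inj {e : Ed} {a : ℤ × ℤ} (h : 2 • e.1 + uz e.2 = 2 • a + uz 1) : e = (a, 1) := by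
  obtain ⟨w, i⟩ := e
  fin_cases i
  · simp only [uz, Prod.ext_iff, Prod.fst_add, Prod.snd_add, two_fst, two_snd] at h
    simp at h
    omega
  · exact Prod.ext (two_inj (add_right_cancel h)) rfl

theorem pth_edges {E : Finset Ed} {k k' : ℤ × ℤ} {S : Set (ℤ × ℤ)}
    (h : Pth (fun u d => edg u d ∈ E) k' k S) : ∃ P ⊆ E,
      (∀ e ∈ P, 2 • e.1 ∈ S ∧ 2 • e.1 + uz e.2 ∈ S ∧ 2 • (e.1 + uz e.2) ∈ S) ∧
      (∀ v, dgz P v = sp (k = v) * sp (k' = v)) ∧ Relation.ReflTransGen (St S) k k' := by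
  induction h with
  | refl => exact ⟨∅, empty_subset _, by simp, fun v => by rw [dgz_empty, sp_sq],
      Relation.ReflTransGen.refl⟩
  | @step k d S h h2 h3 ih =>
    obtain ⟨P, p1, p2, p3, p4⟩ := ih
    have k0 : 2 • k ∈ S ∪ {2 • k, 2 • k + st4 d} := Or.inr (Or.inl rfl)
    have k1 : 2 • k + st4 d ∈ S ∪ {2 • k, 2 • k + st4 d} := Or.inr (Or.inr rfl)
    have k2 : 2 • (k + st4 d) ∈ S ∪ {2 • k, 2 • k + st4 d} := Or.inl h.head
    have hn : edg k d ∉ P := fun hm => by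
      obtain ⟨a1, -, a2⟩ := p2 _ hm
      rcases edg_ends k d with ⟨b1, b2⟩ | ⟨b1, b2⟩
      · exact h2 (b1 ▸ a1)
      · rw [b1, b2, add_neg_cancel_right] at a2
        exact h2 a2
    refine ⟨insert (edg k d) P, insert_subset h3 p1, fun e he => ?_, fun v => ?_,
      Relation.ReflTransGen.head ⟨d, rfl, k0, k1, k2⟩ (Relation.ReflTransGen.mono ?_ _ _ p4)⟩
    · rcases mem_insert.1 he with rfl | he
      · rw [edg_mid]
        rcases edg_ends k d with ⟨b1, b2⟩ | ⟨b1, b2⟩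
        · rw [b1, b2]
          exact ⟨k0, k1, k2⟩
        · rw [b1, b2, add_neg_cancel_right]
          exact ⟨k2, k1, k0⟩
      · exact ⟨Or.inl (p2 e he).1, Or.inl (p2 e he).2.1, Or.inl (p2 e he).2.2⟩
    · rw [dgz_insert hn, p3]
      have := sp_sq (k + st4 d = v)
      rcases edg_ends k d with ⟨b1, b2⟩ | ⟨b1, b2⟩
      · rw [b1, b2]
        linear_combination (sp (k = v) * sp (k' = v)) * this
      · rw [b1, b2, add_neg_cancel_right]
        linear_combination (sp (k = v) * sp (k' = v)) * this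
    · rintro u w ⟨c, c1, c2, c3, c4⟩
      exact ⟨c, c1, Or.inl c2, Or.inl c3, Or.inl c4⟩

theorem exists_cy {E : Finset Ed} (hE : ∀ v, dgz E v = 1) (hn : E.Nonempty) :
    ∃ P a S, Cy E P a S := by
  obtain ⟨a, ha⟩ := exists_vert hE hn
  obtain ⟨S, hS⟩ := exists_pth (handshake hE ha)
  obtain ⟨P, p1, p2, p3, p4⟩ := pth_edges hS
  have hn : (a, (1 : Fin 2)) ∉ P := fun h => notMem_erase _ _ (p1 h)
  refine ⟨insert (a, 1) P, a, S, insert_subset ha (p1.trans (erase_subset _ _)),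
    mem_insert_self _ _, fun v => ?_, hS.allC, hS.head, hS.last, fun e he => ?_, fun h => ?_,
    fun x hx => ?_, fun x hx => ?_, p4⟩
  · rw [dgz_insert hn, p3]
    have h1 := sp_sq (a = v)
    have h2 := sp_sq (a + uz 1 = v)
    linear_combination (sp (a + uz 1 = v) * sp (a + uz 1 = v)) * h1 + h2
  · rcases mem_insert.1 he with rfl | he
    · exact ⟨hS.head, Or.inl rfl⟩
    · exact ⟨(p2 e he).1, Or.inr (p2 e he).2.1⟩
  · rcases hS.mem h with h | ⟨j, d, h1, -, -, -, h | h⟩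
    · exact two_ne _ a 1 h.symm
    · exact two_ne _ a 1 h.symm
    · rw [← edg_mid] at h
      exact notMem_erase _ _ (mid_inj h.symm ▸ h1)
  · rcases hS.mem hx with rfl | ⟨j, d, -, -, -, -, rfl | rfl⟩
    · rw [two_fst]
      omega
    · rw [two_fst]
      omega
    · have := st4_cases d
      simp only [Prod.fst_add, Prod.snd_add, two_fst, two_snd]
      omega
  · rcases hS.mem hx with rfl | ⟨j, d, h1, -, -, -, h⟩
    · refine ⟨_, ha, ?_⟩
      simp only [Prod.fst_add, Prod.snd_add, two_fst, two_snd, uz]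
      simp
      omega
    · refine ⟨_, erase_subset _ _ h1, ?_⟩
      rcases h with rfl | rfl <;> simp only [Prod.fst_add, Prod.snd_add, two_fst, two_snd] <;>
        fin_cases d <;> simp [edg, st4] <;> omega

theorem decomp (E : Finset Ed) (hE : ∀ v, dgz E v = 1) : ∃ n ≤ E.card,
    ∃ (P : Fin n → Finset Ed) (a : Fin n → ℤ × ℤ) (S : Fin n → Set (ℤ × ℤ)),
      (∀ j, Cy E (P j) (a j) (S j)) ∧ ∀ e, sp (e ∈ E) = ∏ j, sp (e ∈ P j) := by
  induction E using Finset.strongInduction with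
  | H E ih =>
    rcases E.eq_empty_or_nonempty with rfl | hn
    · exact ⟨0, le_rfl, Fin.elim0, Fin.elim0, Fin.elim0, fun j => j.elim0, fun e => by simp [sp]⟩
    obtain ⟨P₀, a₀, S₀, h⟩ := exists_cy hE hn
    have hss : E \ P₀ ⊂ E := sdiff_ssubset h.sub ⟨_, h.mem⟩
    obtain ⟨n, h1, P, a, S, h2, h3⟩ := ih (E \ P₀) hss fun v => by
      have := dgz_sdiff h.sub v
      rwa [hE, h.even, one_mul, eq_comm] at this
    refine ⟨n + 1, h1.trans_lt (card_lt_card hss), Fin.cons P₀ P, Fin.cons a₀ a, Fin.cons S₀ S,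
      fun j => ?_, fun e => ?_⟩
    · refine Fin.cases ?_ (fun j => ?_) j
      · exact h
      · exact (h2 j).mono sdiff_subset
    · rw [Fin.prod_univ_succ, sp_sdiff h.sub, h3]
      rfl

end Vale.Agent.P144Z.ICyc
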