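import Vale.Agent.P144D.I.Cg.CycB
import Vale.Agent.P144D.I.Cg.CycC
import Vale.Agent.P144D.I.Cg.Corr

/-!
The tube around a coarse cycle, in the plane.
-/

namespace Vale.Agent.P144Z.ICyc

open Finset ICg GeoA B5a2

/-- The doubled coarse coordinate. -/
def gq (q : ℕ) : ℤ → ℤ := gr (384 * q) (64 * q) 0

variable {q : ℕ} {x k : ℤ}

theorem gq_e (h1 : 384 * q * k ≤ x) (h2 : x < 384 * q * k + 64 * q) : gq q x = 2 * k :=
  (gr_eq_even (by omega) (by omega)).2 ⟨by omega, by omega⟩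

theorem gq_o (h1 : 384 * q * k + 64 * q ≤ x) (h2 : x < 384 * q * k + 384 * q) :
    gq q x = 2 * k + 1 :=
  (gr_eq_odd (by omega) (by omega)).2 ⟨by omega, by omega⟩

theorem gq_e' (h1 : 384 * q * k + 384 * q ≤ x) (h2 : x < 384 * q * k + 448 * q) :
    gq q x = 2 * k + 2 :=
  (gq_e (k := k + 1) (by rw [mul_add]; omega) (by rw [mul_add]; omega)).trans (by ring)

theorem gq_o' (h1 : 384 * q * k - 320 * q ≤ x) (h2 : x < 384 * q * k) : gq q x = 2 * k - 1 :=
  (gq_o (k := k - 1) (by rw [mul_sub]; omega) (by rw [mul_sub]; omega)).trans (by ring)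

theorem gq_near (hq : 0 < q) (h1 : 2 * k ≤ gq q x) (h2 : gq q x ≤ 2 * k + 2) :
    384 * q * k ≤ x ∧ x ≤ 384 * q * k + 768 * q := by
  have hm : (0 : ℤ) < 384 * q := by omega
  obtain ⟨j, a1, a2⟩ := exists_cell hm 0 x
  rw [gq, gr_of_cell hm a1 a2] at h1 h2
  have b1 : k ≤ j := by split_ifs at h1 <;> omega
  have b2 : j ≤ k + 1 := by split_ifs at h2 <;> omega
  have c1 := mul_le_mul_of_nonneg_left b1 hm.le
  have c2 := mul_le_mul_of_nonneg_left b2 hm.le
  rw [mul_add] at c2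
  omega

theorem gq_cases (hq : 0 < q) (x : ℤ) : (gq q x = 2 * (x / (384 * q)) ∨
    gq q x = 2 * (x / (384 * q)) + 1) ∧ (x % (384 * q) = 0 → gq q x = 2 * (x / (384 * q))) := by
  simp only [gq, gr, sub_zero]
  split_ifs <;> omega

/-- The tube. -/
def tb (q : ℕ) (a : ℤ × ℤ) (S : Set (ℤ × ℤ)) : Set (ℤ × ℤ) :=
  pre (gq q) (gq q) (S ∪ {2 • a + uz 1})

/-- The face to the left of the cut. -/
def cf (q : ℕ) (a : ℤ × ℤ) : ℤ × ℤ := (384 * q * a.1 - 1, 384 * q * a.2 + 192 * q)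

/-- The row of the cut. -/
def rz (q : ℕ) (a : ℤ × ℤ) : Set (ℤ × ℤ) :=
  {v | v.2 = 384 * q * a.2 + 192 * q ∧ 384 * q * a.1 ≤ v.1 ∧ v.1 < 384 * q * a.1 + 64 * q}

/-- The centre of a node. -/
def ctr (q : ℕ) (k : ℤ × ℤ) : ℤ × ℤ := (384 * q * k.1 + 32 * q - 1, 384 * q * k.2 + 32 * q - 1)

theorem mid_eq (a : ℤ × ℤ) : 2 • a + uz 1 = (2 * a.1, 2 * a.2 + 1) :=
  Prod.ext (by simp [uz, two_mul, two_smul]) (by simp [uz, two_mul, two_smul])

theorem two_eq (a : ℤ × ℤ) : 2 • a = (2 * a.1, 2 * a.2) := Prod.ext (two_fst a) (two_snd a)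

theorem top_eq (a : ℤ × ℤ) : 2 • (a + uz 1) = (2 * a.1, 2 * a.2 + 2) :=
  Prod.ext (by simp [uz]) (by simp [uz])

variable {E P : Finset Ed} {a : ℤ × ℤ} {S : Set (ℤ × ℤ)}

theorem tb_near (hq : 0 < q) (h : Cy E P a S) {v : ℤ × ℤ} (hv : v ∈ tb q a S) :
    ∃ e ∈ E, zd v (384 * q * e.1.1, 384 * q * e.1.2) ≤ 768 * q := by
  have key : ∃ e ∈ E, 2 * e.1.1 ≤ gq q v.1 ∧ gq q v.1 ≤ 2 * e.1.1 + 2 ∧ 2 * e.1.2 ≤ gq q v.2 ∧
      gq q v.2 ≤ 2 * e.1.2 + 2 := by
    rcases hv with hv | hv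
    · exact h.near _ hv
    · rw [mid_eq, Set.mem_singleton_iff, Prod.mk.injEq] at hv
      exact ⟨_, h.sub h.mem, by simp only; omega⟩
  obtain ⟨e, he, a1, a2, a3, a4⟩ := key
  have b1 := gq_near hq a1 a2
  have b2 := gq_near hq a3 a4
  exact ⟨e, he, by simp only [zd]; omega⟩

theorem tb_of_pre {v : ℤ × ℤ} (h : Cy E P a S) (hq : 0 < q) (hv : v ∈ pre (gq q) (gq q) S) :
    v ∈ tb q a S \ rz q a := by
  refine ⟨Or.inl hv, fun ⟨a1, a2, a3⟩ => h.gap ?_⟩
  rw [mem_pre, gq_e a2 a3, gq_o (k := a.2) (by omega) (by omega)] at hv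
  rwa [mid_eq]

theorem tb_odd (h : Cy E P a S) {v : ℤ × ℤ} (h1 : gq q v.1 % 2 = 1) (h2 : gq q v.2 % 2 = 1) :
    v ∉ tb q a S := by
  rintro (hv | hv)
  · have := h.odd _ hv
    simp only at this
    omega
  · rw [mid_eq, Set.mem_singleton_iff, Prod.mk.injEq] at hv
    omega

theorem tb_col (h : Cy E P a S) {v : ℤ × ℤ} (h1 : 384 * q * a.1 ≤ v.1)
    (h2 : v.1 < 384 * q * a.1 + 64 * q) (h3 : 384 * q * a.2 ≤ v.2)
    (h4 : v.2 < 384 * q * a.2 + 448 * q) : v ∈ tb q a S := by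
  rw [tb, mem_pre, gq_e h1 h2]
  by_cases c1 : v.2 < 384 * q * a.2 + 64 * q
  · rw [gq_e h3 c1, ← two_eq]
    exact Or.inl h.bot
  · by_cases c2 : v.2 < 384 * q * a.2 + 384 * q
    · rw [gq_o (k := a.2) (by omega) c2, ← mid_eq]
      exact Or.inr rfl
    · rw [gq_e' (k := a.2) (by omega) h4, ← top_eq]
      exact Or.inl h.top

theorem tb_loc (h : Cy E P a S) {v : ℤ × ℤ} (hq : 0 < q) (hv : zd v 0 ≤ 128 * q) :
    cf q a + v ∈ tb q a S ↔ 1 ≤ v.1 ∧ v.1 ≤ 64 * q := by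
  simp only [zd, Prod.fst_zero, Prod.snd_zero, sub_zero] at hv
  have e1 : (cf q a + v).1 = 384 * q * a.1 - 1 + v.1 := rfl
  have e2 : (cf q a + v).2 = 384 * q * a.2 + 192 * q + v.2 := rfl
  refine ⟨fun hm => ?_, fun hm => tb_col h (by omega) (by omega) (by omega) (by omega)⟩
  have b2 := gq_o (q := q) (k := a.2) (x := (cf q a + v).2) (by omega) (by omega)
  by_contra hn
  refine tb_odd h ?_ (by omega) hm
  by_cases c : v.1 < 1
  · rw [gq_o' (k := a.1) (by omega) (by omega)]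
    omega
  · rw [gq_o (k := a.1) (by omega) (by omega)]
    omega

theorem tb_allC (h : Cy E P a S) (hq : 0 < q) : AllC (· ∉ tb q a S \ rz q a) := by
  have hs : Stp (gq q) := stp_gr (by omega) (by omega) 0
  set R : Set (ℤ × ℤ) := {v | 384 * q * a.1 ≤ v.1 ∧ v.1 < 384 * q * a.1 + 64 * q ∧
    384 * q * a.2 + 64 * q ≤ v.2 ∧ v.2 < 384 * q * a.2 + 384 * q ∧
      v.2 ≠ 384 * q * a.2 + 192 * q} with hR
  have e : tb q a S \ rz q a = pre (gq q) (gq q) S ∪ R := by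
    ext v
    constructor
    · rintro ⟨hv | hv, hn⟩
      · exact Or.inl hv
      · rw [mid_eq, Set.mem_singleton_iff, Prod.mk.injEq, gq, gr_eq_even (by omega) (by omega),
          gr_eq_odd (by omega) (by omega)] at hv
        exact Or.inr ⟨by omega, by omega, by omega, by omega, fun c => hn ⟨c, by omega, by omega⟩⟩
    · rintro (hv | ⟨a1, a2, a3, a4, a5⟩)
      · exact tb_of_pre h hq hv
      · exact ⟨tb_col h a1 a2 (by omega) (by omega), fun c => a5 c.1⟩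
  have side : ∀ x y : ℤ, x = 384 * q * a.1 - 1 ∨ x = 384 * q * a.1 + 64 * q →
      384 * q * a.2 + 64 * q ≤ y → y < 384 * q * a.2 + 384 * q → (x, y) ∉ tb q a S \ rz q a := by
    intro x y hx h1 h2 hm
    refine tb_odd h ?_ ?_ hm.1
    · rcases hx with hx | hx
      · rw [gq_o' (k := a.1) (by simp only; omega) (by simp only; omega)]
        omega
      · rw [gq_o (k := a.1) (by simp only; omega) (by simp only; omega)]
        omega
    · rw [gq_o (k := a.2) h1 h2]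
      omega
  have row : ∀ x : ℤ, 384 * q * a.1 - 1 ≤ x → x ≤ 384 * q * a.1 + 64 * q →
      Rch (· ∉ tb q a S \ rz q a) (x, 384 * q * a.2 + 192 * q) (cf q a) := by
    intro x h1 h2
    refine rch_row _ _ _ fun j j1 j2 => ?_
    by_cases c : j = 384 * q * a.1 - 1 ∨ j = 384 * q * a.1 + 64 * q
    · exact side _ _ c (by omega) (by omega)
    · exact fun hm => hm.2 ⟨rfl, by simp only; omega, by simp only; omega⟩
  have key : ∀ u d, u ∉ tb q a S \ rz q a → u + st4 d ∈ R →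
      Rch (· ∉ tb q a S \ rz q a) u (cf q a) := by
    rintro ⟨x, y⟩ d hu ⟨a1, a2, a3, a4, a5⟩
    simp only [Prod.fst_add, Prod.snd_add] at a1 a2 a3 a4 a5
    have hd := st4_cases d
    by_cases c : x = 384 * q * a.1 - 1 ∨ x = 384 * q * a.1 + 64 * q
    · exact (rch_col x y (384 * q * a.2 + 192 * q) fun j j1 j2 =>
        side _ _ c (by omega) (by omega)).trans (row x (by omega) (by omega))
    · have hy : y = 384 * q * a.2 + 192 * q := by
        by_contra hy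
        exact hu ⟨tb_col h (by simp only; omega) (by simp only; omega) (by simp only; omega)
          (by simp only; omega), fun c => hy c.1⟩
      rw [hy]
      exact row x (by omega) (by omega)
  rw [e] at key ⊢
  exact attach (allC_pre hs hs h.allC) fun u v c d hu hv h1 h2 =>
    (key u c hu h1).trans (key v d hv h2).symm

/-- The square of radius `2 q` around `p` lies in `X`. -/
def Dp (q : ℕ) (X : Set (ℤ × ℤ)) (p : ℤ × ℤ) : Prop := ∀ v, zd v p ≤ 2 * q → v ∈ X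

theorem dp_row (hq : 0 < q) {k : ℤ × ℤ} (h0 : (2 * k.1, 2 * k.2) ∈ S)
    (h1 : (2 * k.1 + 1, 2 * k.2) ∈ S) (h2 : (2 * k.1 + 2, 2 * k.2) ∈ S) :
    Rch (Dp q (pre (gq q) (gq q) S)) (ctr q k) (ctr q (k + (1, 0))) := by
  simp only [ctr, Prod.fst_add, Prod.snd_add, add_zero, mul_add]
  refine rch_row _ _ _ fun j j1 j2 v hv => ?_
  simp only [zd] at hv
  rw [mem_pre, gq_e (k := k.2) (x := v.2) (by omega) (by omega)]
  by_cases c1 : v.1 < 384 * q * k.1 + 64 * q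
  · rwa [gq_e (by omega) c1]
  · by_cases c2 : v.1 < 384 * q * k.1 + 384 * q
    · rwa [gq_o (k := k.1) (by omega) c2]
    · rwa [gq_e' (k := k.1) (by omega) (by omega)]

theorem dp_col (hq : 0 < q) {k : ℤ × ℤ} (h0 : (2 * k.1, 2 * k.2) ∈ S)
    (h1 : (2 * k.1, 2 * k.2 + 1) ∈ S) (h2 : (2 * k.1, 2 * k.2 + 2) ∈ S) :
    Rch (Dp q (pre (gq q) (gq q) S)) (ctr q k) (ctr q (k + (0, 1))) := by
  simp only [ctr, Prod.fst_add, Prod.snd_add, add_zero, mul_add]
  refine rch_col _ _ _ fun j j1 j2 v hv => ?_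
  simp only [zd] at hv
  rw [mem_pre, gq_e (k := k.1) (x := v.1) (by omega) (by omega)]
  by_cases c1 : v.2 < 384 * q * k.2 + 64 * q
  · rwa [gq_e (by omega) c1]
  · by_cases c2 : v.2 < 384 * q * k.2 + 384 * q
    · rwa [gq_o (k := k.2) (by omega) c2]
    · rwa [gq_e' (k := k.2) (by omega) (by omega)]

theorem mem_congr {x y : ℤ × ℤ} (h : x ∈ S) (h1 : x.1 = y.1) (h2 : x.2 = y.2) : y ∈ S :=
  Prod.ext h1 h2 ▸ h

theorem dp_st (hq : 0 < q) {k k' : ℤ × ℤ} (h : St S k k') :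
    Rch (Dp q (pre (gq q) (gq q) S)) (ctr q k) (ctr q k') := by
  obtain ⟨d, rfl, h0, h1, h2⟩ := h
  rw [two_eq] at h0 h1 h2
  fin_cases d
  · exact dp_row hq h0 (mem_congr h1 (by simp [st4]) (by simp [st4]))
      (mem_congr h2 (by simp [st4, mul_add]) (by simp [st4]))
  · exact dp_col hq h0 (mem_congr h1 (by simp [st4]) (by simp [st4]))
      (mem_congr h2 (by simp [st4]) (by simp [st4, mul_add]))
  · have := dp_row hq h2 (mem_congr h1 (by simp [st4]; ring) (by simp [st4]))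
      (mem_congr h0 (by simp [st4]; ring) (by simp [st4]))
    rw [show k + st4 _ + (1, 0) = k by simp [st4, Prod.ext_iff]] at this
    exact this.symm
  · have := dp_col hq h2 (mem_congr h1 (by simp [st4]) (by simp [st4]; ring))
      (mem_congr h0 (by simp [st4]) (by simp [st4]; ring))
    rw [show k + st4 _ + (0, 1) = k by simp [st4, Prod.ext_iff]] at this
    exact this.symm

theorem tb_dp (h : Cy E P a S) (hq : 0 < q) {y : ℤ} (h1 : 384 * q * a.2 + 32 * q - 1 ≤ y)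
    (h2 : y ≤ 384 * q * a.2 + 416 * q)
    (h3 : y ≤ 384 * q * a.2 + 184 * q ∨ 384 * q * a.2 + 200 * q ≤ y) :
    Dp q (tb q a S \ rz q a) (384 * q * a.1 + 32 * q - 1, y) := by
  intro v hv
  simp only [zd] at hv
  exact ⟨tb_col h (by omega) (by omega) (by omega) (by omega), fun c => by have := c.1; omega⟩

theorem tb_path (h : Cy E P a S) (hq : 0 < q) : Rch (Dp q (tb q a S \ rz q a))
    (cf q a + ((32 * q : ℤ), -(8 * q : ℤ))) (cf q a + ((32 * q : ℤ), (8 * q + 1 : ℤ))) := by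
  have mid : ∀ k, Relation.ReflTransGen (St S) a k →
      Rch (Dp q (tb q a S \ rz q a)) (ctr q a) (ctr q k) := by
    intro k hk
    induction hk with
    | refl => exact rch_refl _
    | tail _ s ih =>
      exact ih.trans (rch_mono (fun p hp v hv => tb_of_pre h hq (hp v hv)) (dp_st hq s))
  have e1 : cf q a + ((32 * q : ℤ), -(8 * q : ℤ)) =
      (384 * q * a.1 + 32 * q - 1, 384 * q * a.2 + 184 * q) :=
    Prod.ext (by simp only [cf, Prod.fst_add]; omega) (by simp only [cf, Prod.snd_add]; omega)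
  have e2 : cf q a + ((32 * q : ℤ), (8 * q + 1 : ℤ)) =
      (384 * q * a.1 + 32 * q - 1, 384 * q * a.2 + 200 * q + 1) :=
    Prod.ext (by simp only [cf, Prod.fst_add]; omega) (by simp only [cf, Prod.snd_add]; omega)
  have e3 : ctr q (a + uz 1) = (384 * q * a.1 + 32 * q - 1, 384 * q * a.2 + 416 * q - 1) :=
    Prod.ext (by simp [ctr, uz]) (by simp [ctr, uz]; ring)
  have m := mid _ h.path
  rw [e3] at m
  rw [e1, e2]
  exact ((rch_col _ _ _ fun j j1 j2 => tb_dp h hq (by omega) (by omega) (by omega)).trans m).trans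
    (rch_col _ _ _ fun j j1 j2 => tb_dp h hq (by omega) (by omega) (by omega))

theorem tb_lf (h : Cy E P a S) (hq : 0 < q) {i : Fin 2} {v : ℤ × ℤ}
    (hv : lf (384 * q) P i v = true) : v ∈ tb q a S := by
  obtain ⟨h1, h2⟩ := of_decide_eq_true hv
  obtain ⟨h3, h4⟩ := h.cov _ h2
  have h5 : 2 • cel (384 * q) v + uz i ∈ S ∪ {2 • a + uz 1} := by
    rcases h4 with h4 | h4
    · obtain ⟨b1, b2⟩ := Prod.ext_iff.1 h4
      simp only at b1 b2
      rw [b1, b2]
      exact Or.inr rfl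
    · exact Or.inl h4
  have h6 : 2 • cel (384 * q) v ∈ S ∪ {2 • a + uz 1} := Or.inl h3
  rw [two_eq] at h5 h6
  obtain ⟨a1, a2⟩ := gq_cases hq v.1
  obtain ⟨b1, b2⟩ := gq_cases hq v.2
  change (gq q v.1, gq q v.2) ∈ S ∪ {2 • a + uz 1}
  rcases (by fin_cases i <;> simp : i = 0 ∨ i = 1) with rfl | rfl
  · rcases a1 with a1 | a1
    · exact mem_congr h6 a1.symm (b2 h1).symm
    · exact mem_congr h5 a1.symm ((add_zero _).trans (b2 h1).symm)
  · rcases b1 with b1 | b1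
    · exact mem_congr h6 (a2 h1).symm b1.symm
    · exact mem_congr h5 ((add_zero _).trans (a2 h1).symm) b1.symm

theorem lf_cut (h : Cy E P a S) (hq : 0 < q) {i : ℕ} (h1 : 1 ≤ i) (h2 : i ≤ 64 * q + 1) :
    lf (384 * q) P 1 (cf q a + ((i : ℤ), 0)) = decide (i = 1) := by
  have a1 := dv (m := 384 * q) (x := (cf q a + ((i : ℤ), 0)).1) (k := a.1) (r := i - 1)
    (by simp only [cf, Prod.fst_add]; omega) (by omega) (by omega)
  have a2 := dv (m := 384 * q) (x := (cf q a + ((i : ℤ), 0)).2) (k := a.2) (r := 192 * q)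
    (by simp only [cf, Prod.snd_add]; omega) (by omega) (by omega)
  have e : cel (384 * q) (cf q a + ((i : ℤ), 0)) = a := Prod.ext a1.1 a2.1
  unfold lf
  rw [if_neg (by decide), a1.2, e]
  exact decide_eq_decide.2 ⟨fun c => by omega, fun c => ⟨by omega, h.mem⟩⟩

theorem tb_cov {T L : ℕ} (h4 : 4 ≤ q) (hT : T ≤ L * q) (hX : ∀ v ∈ tb q a S, zd v 0 ≤ T) :
    Cov (Lay (tb q a S \ rz q a)) (16 * L + 53) := by
  refine ((cov_pre (m := 384 * q) (w := 64 * q) (by omega) (by omega) 0 0 h4 (by omega) hT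
    (S ∪ {2 • a + uz 1})).or (cov_row (384 * q * a.2 + 192 * q) 2)).mono (fun v hv => ?_) le_rfl
  rcases lay_diff hv with c | ⟨⟨f, c1, c2⟩, -⟩
  · exact Or.inl ⟨lay_box hX c, c⟩
  · have := c1.1
    simp only [zd] at c2
    exact Or.inr (by omega)

end Vale.Agent.P144Z.ICyc
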